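import Vale.Agent.P291.H906.End

/-!
# P291 / H906 / Pairs: elements of `J_C` are sums of products of two generators of opposite charge
-/

open MvPolynomial

set_option linter.unusedSectionVars false

namespace Vale.Agent.P291.H906

variable {I E B Λ : Type*} [Fintype E] [DecidableEq I] [Fintype B] [DecidableEq B] [CommRing Λ]
  [IsDomain Λ]
variable (Q : QD I E B Λ)

theorem P2_of_JC [Algebra ℚ Λ] (hQ : Q.NonzeroLoops) {f : SS B Λ} (hf : f ∈ Q.JC) :
    QD.cst f ∈ P2 (full Q) (PD Q) := by
  let _ : VS I := vsQ Q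
  have hfs : ∀ i, i ∉ (VS.s : Finset I) → full Q (some i) = 0 := fun i hi => full_some Q hi
  obtain ⟨hfR, hfI⟩ := hf
  have hzR : QD.cst f ∈ RS Q := ⟨f, hfR, rfl⟩
  obtain ⟨n, hn⟩ := TI_le Q hQ hfs (II_le_TI Q hfI)
  have h0 : QD.cst f ∈ Z (full Q) (PD Q) (RS Q) 0 := by
    induction n with
    | zero => exact_mod_cast hn
    | succ n ih =>
      apply ih
      have := step Q hQ hfs hzR (by positivity) hn
      rwa [Nat.cast_succ, add_sub_cancel_right] at this
  have h1 : Z (full Q) (PD Q) (RS Q) 0 ≤ J2 (full Q) (PD Q) (RS Q) := by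
    unfold Z
    refine sup_le le_rfl (iSup_le fun C => ?_)
    have := Phi_pos (full_none Q) hfs C.2.1
    have := C.2.2
    omega
  exact (h1 h0).2

/-- charge vector of a dimension vector -/
def cv (a : DV I) (i : I) : ℤ := a (some i) - a none * full Q (some i)

theorem chg_lamV (V : Finset (Option B)) (i : I) :
    QD.chg Q i (lamV V) = cv Q (Q.dm V) i := by
  classical
  unfold QD.chg lamV cv full QD.dm
  rw [Finset.sum_sub_distrib]
  congr 1
  · rw [← Finset.sum_filter, Finset.filter_filter, Finset.sum_const, nsmul_eq_mul, mul_one]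
    congr 1
    rw [← Finset.card_map Function.Embedding.some]
    congr 1
    ext o
    simp only [Finset.mem_map, Finset.mem_filter, Finset.mem_univ, true_and,
      Function.Embedding.some_apply]
    constructor
    · rintro ⟨b, ⟨h1, h2⟩, rfl⟩
      exact ⟨h2, by simp [QD.vo, h1]⟩
    · rintro ⟨h1, h2⟩
      rcases o with _ | b
      · simp [QD.vo] at h2
      · refine ⟨b, ⟨?_, h1⟩, rfl⟩
        simpa [QD.vo] using h2
  · have h1 : (Finset.univ.filter fun b => Q.vx b = i).card =
        ((Finset.univ : Finset (Option B)).filter fun o => Q.vo o = some i).card := by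
      rw [← Finset.card_map Function.Embedding.some]
      congr 1
      ext o
      simp only [Finset.mem_map, Finset.mem_filter, Finset.mem_univ, true_and,
        Function.Embedding.some_apply]
      constructor
      · rintro ⟨b, h2, rfl⟩
        simp [QD.vo, h2]
      · intro h2
        rcases o with _ | b
        · simp [QD.vo] at h2
        · refine ⟨b, ?_, rfl⟩
          simpa [QD.vo] using h2
    have h2 : (V.filter fun o => Q.vo o = none).card = if none ∈ V then 1 else 0 := by
      split_ifs with h
      · rw [Finset.card_eq_one]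
        refine ⟨none, ?_⟩
        ext o
        rcases o with _ | b
        · simp [QD.vo, h]
        · simp [QD.vo]
      · rw [Finset.card_eq_zero, Finset.filter_eq_empty_iff]
        intro o ho ho'
        rcases o with _ | b
        · exact h ho
        · simp [QD.vo] at ho'
    rw [← h1, h2, Finset.sum_const, nsmul_eq_mul]
    split_ifs <;> simp

/-- elements without charge zero part -/
def NC0 : Submodule Λ (AA B Λ) where
  carrier := {z | ∀ mu, (∀ i, Q.chg i mu = 0) → z.coeff mu = 0}
  add_mem' := by
    intro x y hx hy mu hmu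
    rw [AddMonoidAlgebra.coeff_add, Finsupp.add_apply, hx mu hmu, hy mu hmu, add_zero]
  zero_mem' := by
    intro mu _
    rfl
  smul_mem' := by
    intro c x hx mu hmu
    rw [AddMonoidAlgebra.coeff_smul, Finsupp.smul_apply, hx mu hmu, smul_zero]

/-- elements of charge zero -/
def C0 : Submodule Λ (AA B Λ) where
  carrier := {z | ∀ mu, ¬ (∀ i, Q.chg i mu = 0) → z.coeff mu = 0}
  add_mem' := by
    intro x y hx hy mu hmu
    rw [AddMonoidAlgebra.coeff_add, Finsupp.add_apply, hx mu hmu, hy mu hmu, add_zero]
  zero_mem' := by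
    intro mu _
    rfl
  smul_mem' := by
    intro c x hx mu hmu
    rw [AddMonoidAlgebra.coeff_smul, Finsupp.smul_apply, hx mu hmu, smul_zero]

theorem chg_add' (i : I) (lam mu : B → ℤ) : Q.chg i (lam + mu) = Q.chg i lam + Q.chg i mu := by
  unfold QD.chg
  rw [← Finset.sum_add_distrib]
  rfl

theorem chg_zero' (i : I) : Q.chg i 0 = 0 := by
  unfold QD.chg
  simp

theorem M_supp {a : DV I} {F : Finset (Option B) → SS B Λ} (hF : F ∈ Q.EqvD a) {mu : B → ℤ}
    (h : (Q.M F).coeff mu ≠ 0) (i : I) : Q.chg i mu = cv Q a i := by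
  unfold QD.M at h
  rw [TB.coeff_sum_single'] at h
  obtain ⟨V, hV, hV'⟩ := Finset.exists_ne_zero_of_sum_ne_zero h
  have h1 := (Finset.mem_filter.1 hV).2
  have h2 : Q.dm V = a := hF.2 V fun h0 => hV' (by rw [h0]; simp [toK])
  rw [← h1, chg_lamV, h2]

theorem MM_supp {a b : DV I} {F G : Finset (Option B) → SS B Λ} (hF : F ∈ Q.EqvD a)
    (hG : G ∈ Q.EqvD b) {mu : B → ℤ} (h : (Q.M F * Q.M G).coeff mu ≠ 0) (i : I) :
    Q.chg i mu = cv Q a i + cv Q b i := by
  have hMT : Q.M F * Q.M G = Q.MT 2 (fun V => F (V 0) * G (V 1)) := by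
    have := MT_pure Q 2 1 ![F, G]
    simp only [Fin.prod_univ_two, Matrix.cons_val_zero, Matrix.cons_val_one, one_mul,
      cst_one] at this
    exact this.symm
  rw [hMT, MT_coeff] at h
  obtain ⟨V, hV, hV'⟩ := Finset.exists_ne_zero_of_sum_ne_zero h
  have h1 := (Finset.mem_filter.1 hV).2
  rw [Fin.sum_univ_two] at h1
  have h2 : Q.dm (V 0) = a := hF.2 _ fun h0 => hV' (by rw [h0]; simp [toK])
  have h3 : Q.dm (V 1) = b := hG.2 _ fun h0 => hV' (by rw [h0]; simp [toK])
  rw [← h1, chg_add', chg_lamV, chg_lamV, h2, h3]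

theorem cv_ne {a : DV I} (ha : Nt (full Q) a) : ∃ i, cv Q a i ≠ 0 := by
  by_contra hcon
  push Not at hcon
  obtain ⟨h0, h1, h2⟩ := ha
  have hn : a none ≤ 1 := by
    have := h2 none
    rwa [full_none] at this
  unfold cv at hcon
  rcases Nat.eq_zero_or_pos (a none) with h | h
  · apply h0
    funext o
    rcases o with _ | i
    · exact h
    · have := hcon i
      rw [h] at this
      simpa using this
  · have h' : a none = 1 := by omega
    apply h1
    funext o
    rcases o with _ | i
    · rw [full_none, h']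
    · have := hcon i
      rw [h'] at this
      simp only [Nat.cast_one, one_mul, sub_eq_zero, Nat.cast_inj] at this
      exact this

theorem cv_add {a b : DV I} (ha : Nt (full Q) a) (hb : Nt (full Q) b)
    (h : ∀ i, cv Q a i + cv Q b i = 0) : a + b = full Q := by
  obtain ⟨h0, h1, h2⟩ := ha
  obtain ⟨k0, k1, k2⟩ := hb
  have hn : a none ≤ 1 := by
    have := h2 none
    rwa [full_none] at this
  have kn : b none ≤ 1 := by
    have := k2 none
    rwa [full_none] at this
  unfold cv at h
  have hcase : a none + b none = 0 ∨ a none + b none = 1 ∨ a none + b none = 2 := by omega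
  have hsum : ∀ i, (a (some i) : ℤ) + b (some i) = (a none + b none) * full Q (some i) := by
    intro i
    have := h i
    linarith
  rcases hcase with h' | h' | h'
  · exfalso
    apply h0
    funext o
    rcases o with _ | i
    · show a none = 0
      omega
    · have := hsum i
      have h3 : (a none : ℤ) + b none = 0 := by exact_mod_cast h'
      rw [h3, zero_mul] at this
      show a (some i) = 0
      omega
  · funext o
    rcases o with _ | i
    · rw [full_none]; exact h'
    · have := hsum i
      have h3 : (a none : ℤ) + b none = 1 := by exact_mod_cast h'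
      rw [h3, one_mul] at this
      show a (some i) + b (some i) = _
      exact_mod_cast this
  · exfalso
    apply h1
    funext o
    rcases o with _ | i
    · rw [full_none]
      omega
    · have := hsum i
      have h3 : (a none : ℤ) + b none = 2 := by exact_mod_cast h'
      rw [h3] at this
      have h4 : a (some i) ≤ full Q (some i) := h2 (some i)
      have h5 : b (some i) ≤ full Q (some i) := k2 (some i)
      omega

/-- **Pairs.** An element of `J_C` is a combination of products of two nontrivial generators with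
complementary dimension vectors. -/
theorem pairs_of_JC [Algebra ℚ Λ] (hQ : Q.NonzeroLoops) {f : SS B Λ} (hf : f ∈ Q.JC) :
    QD.cst f ∈ Submodule.span Λ {z : AA B Λ | ∃ a b : DV I, Nt (full Q) a ∧ Nt (full Q) b ∧
      a + b = full Q ∧ ∃ F ∈ Q.EqvD a, ∃ G ∈ Q.EqvD b, z = Q.M F * Q.M G} := by
  set G0 := Submodule.span Λ {z : AA B Λ | ∃ a b : DV I, Nt (full Q) a ∧ Nt (full Q) b ∧
      a + b = full Q ∧ ∃ F ∈ Q.EqvD a, ∃ G ∈ Q.EqvD b, z = Q.M F * Q.M G} with hG0
  have hle : P2 (full Q) (PD Q) ≤ G0 ⊔ NC0 Q := by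
    unfold P2
    refine sup_le (iSup_le fun a => ?_) (iSup_le fun a => iSup_le fun b => ?_)
    · refine le_sup_of_le_right ?_
      rintro z ⟨F, hF, rfl⟩ mu hmu
      by_contra hcon
      obtain ⟨i, hi⟩ := cv_ne Q a.2
      have := M_supp Q hF hcon i
      rw [hmu i] at this
      exact hi this.symm
    · rw [Submodule.mul_le]
      rintro _ ⟨F, hF, rfl⟩ _ ⟨G, hG, rfl⟩
      rw [ML_apply, ML_apply]
      by_cases hab : a.1 + b.1 = full Q
      · exact Submodule.mem_sup_left (Submodule.subset_span
          ⟨a.1, b.1, a.2, b.2, hab, F, hF, G, hG, rfl⟩)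
      · refine Submodule.mem_sup_right ?_
        intro mu hmu
        by_contra hcon
        apply hab
        refine cv_add Q a.2 b.2 fun i => ?_
        rw [← MM_supp Q hF hG hcon i, hmu i]
  have hG0C : G0 ≤ C0 Q := by
    rw [hG0, Submodule.span_le]
    rintro z ⟨a, b, ha, hb, hab, F, hF, G, hG, rfl⟩ mu hmu
    by_contra hcon
    apply hmu
    intro i
    rw [MM_supp Q hF hG hcon i]
    unfold cv
    have h1 : a none + b none = 1 := by
      have := congrFun hab none
      rwa [full_none] at this
    have h2 : a (some i) + b (some i) = full Q (some i) := congrFun hab (some i)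
    have h3 : (a (some i) : ℤ) + b (some i) = full Q (some i) := by exact_mod_cast h2
    have h4 : (a none : ℤ) + b none = 1 := by exact_mod_cast h1
    have h5 : (b none : ℤ) = 1 - a none := by linarith
    rw [← h3, h5]
    ring
  obtain ⟨g, hg, n, hn, hgn⟩ := Submodule.mem_sup.1 (hle (P2_of_JC Q hQ hf))
  have hcst : QD.cst f ∈ C0 Q := by
    intro mu hmu
    unfold QD.cst
    rw [AddMonoidAlgebra.coeff_single, Finsupp.single_apply, if_neg]
    rintro rfl
    exact hmu fun i => chg_zero' Q i
  have hn' : n ∈ C0 Q := by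
    have : n = QD.cst f - g := by rw [← hgn]; ring
    rw [this]
    exact sub_mem hcst (hG0C hg)
  have hn0 : n = 0 := by
    ext mu
    by_cases hmu : ∀ i, Q.chg i mu = 0
    · exact hn mu hmu
    · exact hn' mu hmu
  rw [← hgn, hn0, add_zero]
  exact hg

/-- the same as an honest sum -/
theorem pairs_sum_of_JC [Algebra ℚ Λ] (hQ : Q.NonzeroLoops) {f : SS B Λ} (hf : f ∈ Q.JC) :
    ∃ (n : ℕ) (F G : Fin n → Finset (Option B) → SS B Λ),
      (∀ l, ∃ a b : DV I, Nt (full Q) a ∧ Nt (full Q) b ∧ a + b = full Q ∧
        F l ∈ Q.EqvD a ∧ G l ∈ Q.EqvD b) ∧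
      QD.cst f = ∑ l, Q.M (F l) * Q.M (G l) := by
  obtain ⟨n, c, g, hg⟩ := Submodule.mem_span_set'.1 (pairs_of_JC Q hQ hf)
  choose a b ha hb hab F hF G hG hz using fun l => (g l).2
  refine ⟨n, fun l => c l • F l, G, fun l => ⟨a l, b l, ha l, hb l, hab l,
    (EqvS Q (a l)).smul_mem (c l) (hF l), hG l⟩, ?_⟩
  rw [← hg]
  refine Finset.sum_congr rfl fun l _ => ?_
  rw [hz l, ← ML_apply Q (c l • F l), map_smul, smul_mul_assoc, ML_apply]

end Vale.Agent.P291.H906
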