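import Mathlib

/-!
# P291 / H906 / Split: splitting of filtrations of a vector space indexed by the integers
-/

namespace Vale.Agent.P291.H906.Sp

variable {k V : Type*} [Field k] [AddCommGroup V] [Module k V]

theorem exists_proj (S : Submodule k V) :
    ∃ q : V →ₗ[k] V, (∀ u, q u ∈ S) ∧ ∀ u ∈ S, q u = u := by
  obtain ⟨g, hg⟩ := S.subtype.exists_leftInverse_of_injective (by simp)
  refine ⟨S.subtype ∘ₗ g, fun u => (g u).2, fun u hu => ?_⟩
  have := LinearMap.congr_fun hg ⟨u, hu⟩
  simp only [LinearMap.coe_comp, Function.comp_apply, Submodule.coe_subtype,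
    LinearMap.id_coe, id_eq] at this ⊢
  rw [this]

theorem exists_nested (F : ℤ → Submodule k V) (mono : Monotone F) (N : ℤ)
    (htop : ∀ n, N ≤ n → F n = ⊤) :
    ∃ e : ℤ → (V →ₗ[k] V), (∀ n u, e n u ∈ F n) ∧ (∀ n, ∀ u ∈ F n, e n u = u) ∧
      (∀ m n, m ≤ n → e m ∘ₗ e n = e m) := by
  choose q hq1 hq2 using fun n => exists_proj (F n)
  let E : ℕ → (V →ₗ[k] V) := fun m =>
    Nat.rec LinearMap.id (fun m f => q (N - (m + 1 : ℕ)) ∘ₗ f) m
  have E0 : E 0 = LinearMap.id := rfl
  have ES : ∀ m, E (m + 1) = q (N - (m + 1 : ℕ)) ∘ₗ E m := fun m => rfl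
  have h1 : ∀ (m : ℕ) u, E m u ∈ F (N - m) := by
    intro m u
    cases m with
    | zero => rw [htop _ (by simp)]; trivial
    | succ m => rw [ES]; exact hq1 _ _
  have h2 : ∀ m : ℕ, ∀ u ∈ F (N - m), E m u = u := by
    intro m
    induction m with
    | zero => intro u _; rfl
    | succ m ih =>
      intro u hu
      rw [ES, LinearMap.comp_apply, ih u (mono (by push_cast; omega) hu)]
      exact hq2 _ u hu
  have h3 : ∀ m m', m ≤ m' → E m' ∘ₗ E m = E m' := by
    intro m m' h
    induction m', h using Nat.le_induction with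
    | base =>
      ext u
      exact h2 m _ (h1 m u)
    | succ m' _ ih =>
      rw [ES, LinearMap.comp_assoc, ih]
  refine ⟨fun n => E (N - n).toNat, fun n u => ?_, fun n u hu => ?_, fun m n h => ?_⟩
  · beta_reduce
    rcases le_total N n with h | h
    · rw [htop n h]; trivial
    · have := h1 (N - n).toNat u
      rwa [Int.toNat_of_nonneg (by omega), sub_sub_cancel] at this
  · beta_reduce
    rcases le_total N n with h | h
    · have : (N - n).toNat = 0 := by omega
      rw [this]; rfl
    · apply h2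
      rwa [Int.toNat_of_nonneg (by omega), sub_sub_cancel]
  · exact h3 _ _ (by omega)

/-- splitting of a filtration -/
theorem exists_split (F : ℤ → Submodule k V) (mono : Monotone F) (N : ℕ)
    (hbot : ∀ n, n < -(N : ℤ) → F n = ⊥) (htop : ∀ n, (N : ℤ) ≤ n → F n = ⊤) :
    ∃ P : ℤ → (V →ₗ[k] V),
      (∀ m n, m ≠ n → P m ∘ₗ P n = 0) ∧ (∀ n, P n ∘ₗ P n = P n) ∧
      (∀ n u, P n u ∈ F n) ∧ (∀ m n, m < n → ∀ u ∈ F m, P n u = 0) ∧
      (∀ n, ∀ u ∈ F n, u - P n u ∈ F (n - 1)) ∧
      (∀ u, ∑ n ∈ Finset.Icc (-(N : ℤ)) N, P n u = u) ∧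
      (∀ n, n ∉ Finset.Icc (-(N : ℤ)) N → P n = 0) := by
  obtain ⟨e, h1, h2, h3⟩ := exists_nested F mono N htop
  have h4 : ∀ m n, n ≤ m → e m ∘ₗ e n = e n := by
    intro m n h
    ext u
    exact h2 m _ (mono h (h1 n u))
  have hlow : ∀ n, n < -(N : ℤ) → e n = 0 := by
    intro n hn
    ext u
    have := h1 n u
    rw [hbot n hn] at this
    simpa using this
  have hhigh : ∀ n, (N : ℤ) ≤ n → e n = LinearMap.id := by
    intro n hn
    ext u
    exact h2 n u (by rw [htop n hn]; trivial)
  refine ⟨fun n => e n - e (n - 1), ?_, ?_, ?_, ?_, ?_, ?_, ?_⟩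
  · intro m n hmn
    simp only [LinearMap.sub_comp, LinearMap.comp_sub]
    rcases lt_or_gt_of_ne hmn with h | h
    · rw [h3 m n (by omega), h3 m (n - 1) (by omega), h3 (m - 1) n (by omega),
        h3 (m - 1) (n - 1) (by omega)]
      simp
    · rw [h4 m n (by omega), h4 m (n - 1) (by omega), h4 (m - 1) n (by omega),
        h4 (m - 1) (n - 1) (by omega)]
      simp
  · intro n
    simp only [LinearMap.sub_comp, LinearMap.comp_sub]
    rw [h3 n n le_rfl, h4 n (n - 1) (by omega), h3 (n - 1) n (by omega),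
      h3 (n - 1) (n - 1) le_rfl]
    simp
  · intro n u
    rw [LinearMap.sub_apply]
    exact sub_mem (h1 n u) (mono (by omega) (h1 (n - 1) u))
  · intro m n hmn u hu
    rw [LinearMap.sub_apply, h2 n u (mono (by omega) hu), h2 (n - 1) u (mono (by omega) hu),
      sub_self]
  · intro n u hu
    rw [LinearMap.sub_apply, h2 n u hu, sub_sub_cancel]
    exact h1 (n - 1) u
  · intro u
    have key : ∀ M : ℕ, ∀ u, ∑ n ∈ Finset.Icc (-(N : ℤ)) (-(N : ℤ) + M), (e n - e (n - 1)) u =
        e (-(N : ℤ) + M) u := by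
      intro M u
      induction M with
      | zero =>
        simp only [Nat.cast_zero, add_zero, Finset.Icc_self, Finset.sum_singleton,
          LinearMap.sub_apply]
        rw [hlow (-(N : ℤ) - 1) (by omega)]
        simp
      | succ M ih =>
        have : Finset.Icc (-(N : ℤ)) (-(N : ℤ) + (M + 1 : ℕ)) =
            insert (-(N : ℤ) + (M + 1 : ℕ)) (Finset.Icc (-(N : ℤ)) (-(N : ℤ) + M)) := by
          ext n
          simp only [Finset.mem_Icc, Finset.mem_insert]
          push_cast
          omega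
        rw [this, Finset.sum_insert (by simp), ih, LinearMap.sub_apply]
        have h5 : -(N : ℤ) + (M + 1 : ℕ) - 1 = -(N : ℤ) + M := by push_cast; ring
        rw [h5]
        abel
    have h6 := key (2 * N) u
    have h7 : -(N : ℤ) + (2 * N : ℕ) = N := by push_cast; ring
    rw [h7] at h6
    rw [h6, hhigh _ le_rfl]
    rfl
  · intro n hn
    rw [Finset.mem_Icc, not_and_or, not_le, not_le] at hn
    rcases hn with h | h
    · show e n - e (n - 1) = 0
      rw [hlow n h, hlow (n - 1) (by omega), sub_zero]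
    · show e n - e (n - 1) = 0
      rw [hhigh n (by omega), hhigh (n - 1) (by omega), sub_self]

end Vale.Agent.P291.H906.Sp
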