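import Vale.Agent.P291.H906.Gen

/-!
# P291 / H906 / Cut: constants in the span of products of at most two generators lie in `J_D`
-/

open MvPolynomial

set_option linter.unusedSectionVars false

namespace Vale.Agent.P291.H906

variable {I E B Λ : Type*} [Fintype E] [DecidableEq I] [Fintype B] [DecidableEq B] [CommRing Λ]
  [IsDomain Λ]
variable (Q : QD I E B Λ)

theorem lamV_eq_zero {V : Finset (Option B)} (h : lamV V = 0) : V = ∅ ∨ V = Finset.univ := by
  by_cases hn : none ∈ V
  · right
    rw [Finset.eq_univ_iff_forall]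
    intro o
    rcases o with _ | b
    · exact hn
    · have := congrFun h b
      simp only [lamV, hn, if_true, Pi.zero_apply] at this
      by_contra hb
      rw [if_neg hb] at this
      omega
  · left
    rw [Finset.eq_empty_iff_forall_notMem]
    intro o
    rcases o with _ | b
    · exact hn
    · have := congrFun h b
      simp only [lamV, hn, if_false, Pi.zero_apply] at this
      intro hb
      rw [if_pos hb] at this
      omega

theorem Nt_ne {V : Finset (Option B)} (h : Nt (full Q) (Q.dm V)) :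
    V ≠ ∅ ∧ V ≠ Finset.univ := by
  constructor
  · rintro rfl
    exact h.1 (dm_empty Q)
  · rintro rfl
    exact h.2.1 rfl

/-- support of `lamV V` -/
def supU (V : Finset (Option B)) : Finset B := Finset.univ.filter fun b => lamV V b ≠ 0

theorem lamV_cases (V : Finset (Option B)) :
    (∀ b, lamV V b = if b ∈ supU V then 1 else 0) ∨
    (∀ b, lamV V b = if b ∈ supU V then -1 else 0) := by
  by_cases hn : none ∈ V
  · right
    intro b
    simp only [supU, lamV, hn, if_true, Finset.mem_filter, Finset.mem_univ, true_and]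
    by_cases hb : some b ∈ V <;> simp [hb]
  · left
    intro b
    simp only [supU, lamV, hn, if_false, Finset.mem_filter, Finset.mem_univ, true_and]
    by_cases hb : some b ∈ V <;> simp [hb]

theorem exp_abs (a b : ℤ) : (a - b).toNat + (-a - -b).toNat = (a - b).natAbs := by omega

theorem ext_neg' (lam : B → ℤ) (o : Option B) : ext (-lam) o = -ext lam o := by
  rcases o with _ | b
  · simp [ext]
  · rfl

theorem rho_mul_neg (V : Finset (Option B)) :
    Q.rho (lamV V) * Q.rho (-lamV V) = Q.cut (supU V) := by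
  unfold QD.rho QD.cut
  rw [← Finset.prod_mul_distrib, Finset.prod_filter]
  refine Finset.prod_congr rfl fun p _ => ?_
  rw [← pow_add, ext_neg', Pi.neg_apply, exp_abs]
  have h1 : ∀ b, (lamV V b = 1 ∨ lamV V b = -1) ↔ b ∈ supU V := by
    intro b
    rcases lamV_cases V with h | h <;> rw [h b] <;> by_cases hb : b ∈ supU V <;> simp [hb]
  rcases hs : p.2.2 with _ | s
  · have : ¬ ∃ b ∈ supU V, (none : Option B) = some b := by simp
    by_cases hr : p.2.1 ∈ supU V
    · rw [if_pos (by tauto)]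
      have : (lamV V p.2.1 - ext (lamV V) none).natAbs = 1 := by
        have h0 : ext (lamV V) none = 0 := rfl
        rcases (h1 _).2 hr with h | h <;> rw [h, h0] <;> rfl
      rw [this, pow_one]
    · rw [if_neg (by tauto)]
      have : (lamV V p.2.1 - ext (lamV V) none).natAbs = 0 := by
        have h0 : ext (lamV V) none = 0 := rfl
        rcases lamV_cases V with h | h <;> rw [h, if_neg hr, h0] <;> rfl
      rw [this, pow_zero]
  · have hs' : (∃ b ∈ supU V, (some s : Option B) = some b) ↔ s ∈ supU V := by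
      constructor
      · rintro ⟨b, hb, h⟩
        rw [Option.some.injEq] at h
        rwa [h]
      · intro h; exact ⟨s, h, rfl⟩
    simp only [hs']
    have he : ext (lamV V) (some s) = lamV V s := rfl
    rw [he]
    by_cases hr : p.2.1 ∈ supU V <;> by_cases hs2 : s ∈ supU V
    · rw [if_neg (by tauto)]
      rcases lamV_cases V with h | h <;> rw [h, h s, if_pos hr, if_pos hs2] <;> simp
    · rw [if_pos (by tauto)]
      rcases lamV_cases V with h | h <;> rw [h, h s, if_pos hr, if_neg hs2] <;> simp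
    · rw [if_pos (by tauto)]
      rcases lamV_cases V with h | h <;> rw [h, h s, if_neg hr, if_pos hs2] <;> simp
    · rw [if_neg (by tauto)]
      rcases lamV_cases V with h | h <;> rw [h, h s, if_neg hr, if_neg hs2] <;> simp

/-- product over pairs on the same side -/
noncomputable def NC (V : Finset (Option B)) : SS B Λ :=
  ∏ p ∈ (Q.Prs.filter (fun p => p.1 ≠ p.2)).filter (fun p => (p.1 ∈ supU V ↔ p.2 ∈ supU V)),
    (X p.1 - X p.2 : SS B Λ)

theorem den_mul_neg (V : Finset (Option B)) :
    Q.den (lamV V) * Q.den (-lamV V) * NC Q V = Q.D := by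
  have h1 : Q.den (lamV V) * Q.den (-lamV V) =
      ∏ p ∈ (Q.Prs.filter (fun p => p.1 ≠ p.2)).filter (fun p => ¬ (p.1 ∈ supU V ↔ p.2 ∈ supU V)),
        (X p.1 - X p.2 : SS B Λ) := by
    unfold QD.den
    rw [← Finset.prod_mul_distrib, Finset.filter_filter, Finset.prod_filter]
    refine Finset.prod_congr rfl fun p _ => ?_
    rw [← pow_add, Pi.neg_apply, Pi.neg_apply, exp_abs]
    by_cases hr : p.1 ∈ supU V <;> by_cases hs2 : p.2 ∈ supU V
    · rw [if_neg (by tauto)]
      rcases lamV_cases V with h | h <;> rw [h, h p.2, if_pos hr, if_pos hs2] <;> simp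
    · have hne : p.1 ≠ p.2 := fun h => hs2 (h ▸ hr)
      rw [if_pos (by tauto)]
      rcases lamV_cases V with h | h <;> rw [h, h p.2, if_pos hr, if_neg hs2] <;> simp
    · have hne : p.1 ≠ p.2 := fun h => hr (h ▸ hs2)
      rw [if_pos (by tauto)]
      rcases lamV_cases V with h | h <;> rw [h, h p.2, if_neg hr, if_pos hs2] <;> simp
    · rw [if_neg (by tauto)]
      rcases lamV_cases V with h | h <;> rw [h, h p.2, if_neg hr, if_neg hs2] <;> simp
  rw [h1, NC, QD.D, mul_comm]
  exact Finset.prod_filter_mul_prod_filter_not _ _ _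

theorem cut_lemma {V : Finset (Option B)} (h0 : V ≠ ∅) (h1 : V ≠ Finset.univ) :
    ∃ g ∈ Q.IT, toK Q.D * (Q.e (lamV V) * Q.e (-lamV V)) = toK g := by
  refine ⟨NC Q V * Q.cut (supU V), Ideal.mul_mem_left _ _ (Ideal.subset_span ⟨supU V, ?_, rfl⟩), ?_⟩
  · rw [Finset.nonempty_iff_ne_empty]
    intro hU
    have : lamV V = 0 := by
      funext b
      by_contra hb
      have : b ∈ supU V := Finset.mem_filter.2 ⟨Finset.mem_univ _, hb⟩
      rw [hU] at this
      exact absurd this (Finset.notMem_empty b)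
    rcases lamV_eq_zero this with h | h
    · exact h0 h
    · exact h1 h
  · rw [← rho_mul_neg, ← den_mul_neg Q V]
    unfold QD.e
    have d1 : toK (Q.den (lamV V)) ≠ 0 := toK_ne_zero (den_ne_zero Q _)
    have d2 : toK (Q.den (-lamV V)) ≠ 0 := toK_ne_zero (den_ne_zero Q _)
    simp only [toK, map_mul] at d1 d2 ⊢
    field_simp

/-- elements whose constant coefficient lies in `D⁻¹ I_T` -/
noncomputable def T0 : Submodule Λ (AA B Λ) where
  carrier := {z | ∃ g ∈ Q.IT, toK Q.D * z.coeff 0 = toK g}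
  add_mem' := by
    rintro x y ⟨g, hg, hx⟩ ⟨g', hg', hy⟩
    refine ⟨g + g', add_mem hg hg', ?_⟩
    rw [AddMonoidAlgebra.coeff_add, Finsupp.add_apply, mul_add, hx, hy]
    simp only [toK, map_add]
  zero_mem' := ⟨0, zero_mem _, by simp [toK]⟩
  smul_mem' := by
    rintro c x ⟨g, hg, hx⟩
    refine ⟨C c * g, Ideal.mul_mem_left _ _ hg, ?_⟩
    rw [AddMonoidAlgebra.coeff_smul, Finsupp.smul_apply, mul_smul_comm, hx]
    simp only [toK, map_mul]
    rw [Algebra.smul_def, IsScalarTower.algebraMap_apply Λ (SS B Λ) (KK B Λ)]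
    rfl

theorem PD_le_T0 {a : DV I} (ha : Nt (full Q) a) : PD Q a ≤ T0 Q := by
  rintro z ⟨F, hF, rfl⟩
  refine ⟨0, zero_mem _, ?_⟩
  have : (ML Q F).coeff 0 = 0 := by
    rw [ML_apply]
    unfold QD.M
    rw [TB.coeff_sum_single']
    refine Finset.sum_eq_zero fun V hV => ?_
    have hV' := (Finset.mem_filter.1 hV).2
    have : F V = 0 := by
      by_contra h
      have h2 := hF.2 V h
      rw [← h2] at ha
      rcases lamV_eq_zero hV' with h | h
      · exact (Nt_ne Q ha).1 h
      · exact (Nt_ne Q ha).2 h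
    rw [this]
    simp [toK]
  rw [this]
  simp [toK]

theorem PD_mul_PD_le_T0 {a : DV I} (ha : Nt (full Q) a) (b : DV I) :
    PD Q a * PD Q b ≤ T0 Q := by
  rw [Submodule.mul_le]
  rintro _ ⟨F, hF, rfl⟩ _ ⟨G, hG, rfl⟩
  rw [ML_apply, ML_apply]
  have hMT : Q.M F * Q.M G = Q.MT 2 (fun V => F (V 0) * G (V 1)) := by
    have := MT_pure Q 2 1 ![F, G]
    simp only [Fin.prod_univ_two, Matrix.cons_val_zero, Matrix.cons_val_one, one_mul,
      cst_one] at this
    exact this.symm
  rw [hMT]
  show ∃ g ∈ Q.IT, toK Q.D * (Q.MT 2 _).coeff 0 = toK g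
  rw [MT_coeff, Finset.mul_sum]
  have key : ∀ V ∈ (Finset.univ.filter fun V : Fin 2 → Finset (Option B) =>
      ∑ j, lamV (V j) = 0), ∃ g ∈ Q.IT,
      toK Q.D * (toK (F (V 0) * G (V 1)) * ∏ j, Q.e (lamV (V j))) = toK g := by
    intro V hV
    have hV' := (Finset.mem_filter.1 hV).2
    rw [Fin.sum_univ_two] at hV'
    by_cases hF0 : F (V 0) = 0
    · refine ⟨0, zero_mem _, ?_⟩
      rw [hF0]
      simp [toK]
    have h2 := hF.2 _ hF0
    have h3 : Nt (full Q) (Q.dm (V 0)) := h2 ▸ ha
    obtain ⟨g, hg, hg'⟩ := cut_lemma Q (Nt_ne Q h3).1 (Nt_ne Q h3).2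
    have h4 : lamV (V 1) = - lamV (V 0) := by
      rw [eq_neg_iff_add_eq_zero, add_comm]; exact hV'
    refine ⟨F (V 0) * G (V 1) * g, Ideal.mul_mem_left _ _ hg, ?_⟩
    rw [Fin.prod_univ_two, h4]
    have : toK (F (V 0) * G (V 1) * g) = toK (F (V 0) * G (V 1)) * toK g := by
      simp only [toK, map_mul]
    rw [this, ← hg']
    ring
  choose! g hg hg' using key
  refine ⟨∑ V ∈ (Finset.univ.filter fun V : Fin 2 → Finset (Option B) =>
      ∑ j, lamV (V j) = 0), g V, sum_mem hg, ?_⟩
  rw [Finset.sum_congr rfl hg']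
  simp only [toK, map_sum]

theorem P2_le_T0 : P2 (full Q) (PD Q) ≤ T0 Q := by
  unfold P2
  refine sup_le (iSup_le fun a => PD_le_T0 Q a.2) (iSup_le fun a => iSup_le fun b => ?_)
  exact PD_mul_PD_le_T0 Q a.2 b.1

theorem JD_of_P2 {f : SS B Λ} (hf : f ∈ Q.R) (h : QD.cst f ∈ P2 (full Q) (PD Q)) :
    f ∈ Q.JD := by
  obtain ⟨g, hg, hg'⟩ := P2_le_T0 Q h
  refine ⟨hf, ?_⟩
  have h1 : (QD.cst f).coeff 0 = toK f := by
    unfold QD.cst
    rw [AddMonoidAlgebra.coeff_single, Finsupp.single_eq_same]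
  rw [h1] at hg'
  have h2 : toK (Q.D * f) = toK g := by
    rw [← hg']
    simp only [toK, map_mul]
  have h3 : Q.D * f = g := IsFractionRing.injective (SS B Λ) (KK B Λ) h2
  rw [h3]
  exact hg

end Vale.Agent.P291.H906
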