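import Mathlib

/-!
# P291 / H906 / Dims: combinatorics of dimension vectors (section 4 of note 4311)
-/

namespace Vale.Agent.P291.H906

open Finset

/-- dimension vectors of subsets of `O = Option B` -/
abbrev DV (I : Type*) := Option I → ℕ

/-- the (finite) set of vertices that carry boxes -/
class VS (I : Type*) where
  s : Finset I

section

variable {I : Type*} [VS I]

/-- total size over the genuine vertices -/
def tot (a : DV I) : ℕ := ∑ i ∈ VS.s, a (some i)

/-- the form `sum_i min (a_i, b_i)` -/
def mi (a b : DV I) : ℤ := ∑ i ∈ VS.s, (min (a (some i)) (b (some i)) : ℕ)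

/-- bilinear extension of `mi` to multisets -/
def mm (D E : Multiset (DV I)) : ℤ := (D.map fun a => (E.map fun b => mi a b).sum).sum

/-- number of members containing `none` -/
def qq (D : Multiset (DV I)) : ℤ := (D.map fun a => (a none : ℤ)).sum

/-- total size -/
def ss (D : Multiset (DV I)) : ℤ := (D.map fun a => (tot a : ℤ)).sum

/-- the norm function `Phi` of section 2 -/
def Phi (full : DV I) (D : Multiset (DV I)) : ℤ :=
  mm D D - 2 * qq D * ss D + (qq D) ^ 2 * tot full

theorem mi_comm (a b : DV I) : mi a b = mi b a := by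
  simp [mi, min_comm]

theorem mm_comm (D E : Multiset (DV I)) : mm D E = mm E D := by
  unfold mm
  rw [Multiset.sum_map_sum_map]
  simp only [mi_comm]

theorem mm_add_left (D D' E : Multiset (DV I)) : mm (D + D') E = mm D E + mm D' E := by
  simp [mm]

theorem mm_add_right (D E E' : Multiset (DV I)) : mm D (E + E') = mm D E + mm D E' := by
  rw [mm_comm, mm_add_left, mm_comm E, mm_comm E']

omit [VS I] in
theorem qq_add (D E : Multiset (DV I)) : qq (D + E) = qq D + qq E := by simp [qq]

theorem ss_add (D E : Multiset (DV I)) : ss (D + E) = ss D + ss E := by simp [ss]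

theorem mm_cons_left (a : DV I) (D E : Multiset (DV I)) :
    mm (a ::ₘ D) E = (E.map fun b => mi a b).sum + mm D E := by
  simp [mm]

/-- `mi` drop under the exchange, one context entry -/
theorem mi_exchange {x y x' y' c : DV I} (hs : x' + y' = x + y) (hx : x' ≤ x) (hy : x' ≤ y) :
    mi x' c + mi y' c ≤ mi x c + mi y c := by
  unfold mi
  rw [← Finset.sum_add_distrib, ← Finset.sum_add_distrib]
  refine Finset.sum_le_sum fun i _ => ?_
  have h1 : x' (some i) + y' (some i) = x (some i) + y (some i) := congrFun hs (some i)
  have h2 : x' (some i) ≤ x (some i) := hx (some i)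
  have h3 : x' (some i) ≤ y (some i) := hy (some i)
  have : min (x' (some i)) (c (some i)) + min (y' (some i)) (c (some i)) ≤
    min (x (some i)) (c (some i)) + min (y (some i)) (c (some i)) := by omega
  exact_mod_cast this

theorem mm_pair (x y : DV I) (X : Multiset (DV I)) :
    mm ({x, y} : Multiset (DV I)) X = (X.map fun c => mi x c + mi y c).sum := by
  have : ({x, y} : Multiset (DV I)) = x ::ₘ y ::ₘ 0 := rfl
  rw [this, mm_cons_left, mm_cons_left]
  simp [mm]

theorem mm_pair_pair (x y : DV I) :
    mm ({x, y} : Multiset (DV I)) {x, y} = mi x x + mi y y + 2 * mi x y := by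
  rw [mm_pair]
  have : ({x, y} : Multiset (DV I)) = x ::ₘ y ::ₘ 0 := rfl
  rw [this]
  simp only [Multiset.map_cons, Multiset.map_zero, Multiset.sum_cons, Multiset.sum_zero]
  rw [mi_comm y x]; ring

theorem mi_self (x : DV I) : mi x x = tot x := by
  simp [mi, tot]

theorem tot_exchange {x y x' y' : DV I} (hs : x' + y' = x + y) :
    tot x' + tot y' = tot x + tot y := by
  unfold tot
  rw [← Finset.sum_add_distrib, ← Finset.sum_add_distrib]
  refine Finset.sum_congr rfl fun i _ => ?_
  exact congrFun hs (some i)

omit [VS I] in
theorem qq_pair (x y : DV I) : qq ({x, y} : Multiset (DV I)) = x none + y none := by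
  have : ({x, y} : Multiset (DV I)) = x ::ₘ y ::ₘ 0 := rfl
  rw [this]; simp [qq]

theorem ss_pair (x y : DV I) : ss ({x, y} : Multiset (DV I)) = tot x + tot y := by
  have : ({x, y} : Multiset (DV I)) = x ::ₘ y ::ₘ 0 := rfl
  rw [this]; simp [ss]

theorem Phi_add (full : DV I) (X D : Multiset (DV I)) :
    Phi full (X + D) = mm X X + 2 * mm D X + mm D D - 2 * (qq X + qq D) * (ss X + ss D)
      + (qq X + qq D) ^ 2 * tot full := by
  unfold Phi
  rw [mm_add_left, mm_add_right, mm_add_right, qq_add, ss_add, mm_comm X D]
  ring

/-- `D` is below `E` in every context -/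
def Low (full : DV I) (D E : Multiset (DV I)) : Prop :=
  ∀ X, Phi full (X + D) < Phi full (X + E)

def LowEq (full : DV I) (D E : Multiset (DV I)) : Prop :=
  ∀ X, Phi full (X + D) ≤ Phi full (X + E)

theorem Low.add_left {full : DV I} {D E : Multiset (DV I)} (h : Low full D E)
    (Y : Multiset (DV I)) : Low full (Y + D) (Y + E) := by
  intro X
  have := h (X + Y)
  rwa [add_assoc, add_assoc] at this

theorem Low.lt {full : DV I} {D E : Multiset (DV I)} (h : Low full D E) :
    Phi full D < Phi full E := by
  have := h 0
  simpa using this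

theorem exchange_le {full x y x' y' : DV I} (hs : x' + y' = x + y) (hx : x' ≤ x) (hy : x' ≤ y) :
    LowEq full {x', y'} {x, y} := by
  intro X
  rw [Phi_add, Phi_add, qq_pair, qq_pair, ss_pair, ss_pair, mm_pair_pair,
    mm_pair_pair, mm_pair, mm_pair]
  have e1 : (X.map fun c => mi x' c + mi y' c).sum ≤ (X.map fun c => mi x c + mi y c).sum :=
    Multiset.sum_map_le_sum_map _ _ fun c _ => mi_exchange hs hx hy
  have e2 : (tot x' : ℤ) + tot y' = tot x + tot y := by exact_mod_cast tot_exchange hs
  have e3 : ((x' none : ℕ) : ℤ) + y' none = x none + y none := by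
    have := congrFun hs none
    simp only [Pi.add_apply] at this
    exact_mod_cast this
  have e4 : mi x' y' ≤ mi x y := by
    unfold mi
    refine Finset.sum_le_sum fun i _ => ?_
    have h2 : x' (some i) ≤ x (some i) := hx (some i)
    have h3 : x' (some i) ≤ y (some i) := hy (some i)
    have : min (x' (some i)) (y' (some i)) ≤ min (x (some i)) (y (some i)) := by omega
    exact_mod_cast this
  rw [mi_self, mi_self, mi_self, mi_self, e3, e2]
  linarith

theorem exchange_lt {full x y x' y' : DV I} (hs : x' + y' = x + y) (hx : x' ≤ x) (hy : x' ≤ y)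
    (hne : ∃ i ∈ (VS.s : Finset I), x' (some i) < min (x (some i)) (y (some i))) :
    Low full {x', y'} {x, y} := by
  intro X
  rw [Phi_add, Phi_add, qq_pair, qq_pair, ss_pair, ss_pair, mm_pair_pair,
    mm_pair_pair, mm_pair, mm_pair]
  have e1 : (X.map fun c => mi x' c + mi y' c).sum ≤ (X.map fun c => mi x c + mi y c).sum :=
    Multiset.sum_map_le_sum_map _ _ fun c _ => mi_exchange hs hx hy
  have e2 : (tot x' : ℤ) + tot y' = tot x + tot y := by exact_mod_cast tot_exchange hs
  have e3 : ((x' none : ℕ) : ℤ) + y' none = x none + y none := by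
    have := congrFun hs none
    simp only [Pi.add_apply] at this
    exact_mod_cast this
  have e4 : mi x' y' < mi x y := by
    unfold mi
    obtain ⟨i, his, hi⟩ := hne
    refine Finset.sum_lt_sum (fun i _ => ?_) ⟨i, his, ?_⟩
    · have h2 : x' (some i) ≤ x (some i) := hx (some i)
      have h3 : x' (some i) ≤ y (some i) := hy (some i)
      have : min (x' (some i)) (y' (some i)) ≤ min (x (some i)) (y (some i)) := by omega
      exact_mod_cast this
    · have : min (x' (some i)) (y' (some i)) < min (x (some i)) (y (some i)) := by omega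
      exact_mod_cast this
  rw [mi_self, mi_self, mi_self, mi_self, e3, e2]
  linarith

/-- if `x'` is below the minimum, different from it and the complementary vector is bounded by
`full` (which is `1` at `none`), then the difference is visible at a genuine vertex -/
theorem exists_lt_of_ne {full x y x' y' : DV I} (hf : full none = 1)
    (hfs : ∀ i, i ∉ (VS.s : Finset I) → full (some i) = 0) (hxf : x ≤ full)
    (hs : x' + y' = x + y)
    (hx : x' ≤ x) (hy : x' ≤ y) (hy' : y' ≤ full) (hne : x' ≠ x ⊓ y) :
    ∃ i ∈ (VS.s : Finset I), x' (some i) < min (x (some i)) (y (some i)) := by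
  by_contra hcon
  push Not at hcon
  apply hne
  funext o
  have h1 : x' o + y' o = x o + y o := congrFun hs o
  have h2 : x' o ≤ x o := hx o
  have h3 : x' o ≤ y o := hy o
  have h4 : y' o ≤ full o := hy' o
  simp only [Pi.inf_apply]
  rcases o with _ | i
  · omega
  · by_cases his : i ∈ (VS.s : Finset I)
    · have := hcon i his
      omega
    · have h5 := hfs i his
      have h6 : x (some i) ≤ full (some i) := hxf (some i)
      omega

theorem Phi_zero_cons (full : DV I) (D : Multiset (DV I)) : Phi full (0 ::ₘ D) = Phi full D := by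
  have h : (0 ::ₘ D : Multiset (DV I)) = D + {0} := by
    rw [add_comm, Multiset.singleton_add]
  rw [h, Phi_add]
  have h1 : mm ({0} : Multiset (DV I)) D = 0 := by
    simp [mm, mi]
  have h2 : mm ({0} : Multiset (DV I)) {0} = 0 := by
    simp [mm, mi]
  have h3 : qq ({0} : Multiset (DV I)) = 0 := by simp [qq]
  have h4 : ss ({0} : Multiset (DV I)) = 0 := by simp [ss, tot]
  rw [h1, h2, h3, h4, Phi]; ring

theorem Phi_full_cons {full : DV I} (hf : full none = 1) (D : Multiset (DV I))
    (hD : ∀ a ∈ D, a ≤ full) : Phi full (full ::ₘ D) = Phi full D := by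
  have h : (full ::ₘ D : Multiset (DV I)) = D + {full} := by
    rw [add_comm, Multiset.singleton_add]
  rw [h, Phi_add]
  have h1 : mm ({full} : Multiset (DV I)) D = ss D := by
    simp only [mm, Multiset.map_singleton, Multiset.sum_singleton, ss]
    congr 1
    refine Multiset.map_congr rfl fun a ha => ?_
    unfold mi tot
    push_cast
    refine Finset.sum_congr rfl fun i _ => ?_
    have := hD a ha (some i)
    exact_mod_cast min_eq_right this
  have h2 : mm ({full} : Multiset (DV I)) {full} = tot full := by
    simp [mm, mi_self]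
  have h3 : qq ({full} : Multiset (DV I)) = 1 := by simp [qq, hf]
  have h4 : ss ({full} : Multiset (DV I)) = tot full := by simp [ss]
  rw [h1, h2, h3, h4, Phi]; ring

/-- charge of a dimension vector -/
def chg (full a : DV I) : ℕ := if a none = 0 then tot a else tot full - tot a

def chD (full : DV I) (D : Multiset (DV I)) : ℕ := (D.map (chg full)).sum

def sqD (D : Multiset (DV I)) : ℕ := (D.map fun a => (tot a) ^ 2).sum

theorem tot_mono {a b : DV I} (h : a ≤ b) : tot a ≤ tot b :=
  Finset.sum_le_sum fun i _ => h (some i)

theorem tot_strict {a b : DV I} (h : a ≤ b)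
    (h2 : ∃ i ∈ (VS.s : Finset I), a (some i) < b (some i)) : tot a < tot b := by
  obtain ⟨i, his, hi⟩ := h2
  exact Finset.sum_lt_sum (fun i _ => h (some i)) ⟨i, his, hi⟩

/-- the exchange `{x,y} -> {x ⊓ y, x ⊔ y}`: the charge drops or stays equal with the sum of squares
going up strictly -/
theorem minmax_measure {full x y : DV I} (hf : full none = 1)
    (hfs : ∀ i, i ∉ (VS.s : Finset I) → full (some i) = 0) (hx : x ≤ full) (hy : y ≤ full)
    (h1 : ¬ x ≤ y) (h2 : ¬ y ≤ x) :
    chg full (x ⊓ y) + chg full (x ⊔ y) < chg full x + chg full y ∨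
    (chg full (x ⊓ y) + chg full (x ⊔ y) = chg full x + chg full y ∧
      (tot x) ^ 2 + (tot y) ^ 2 < (tot (x ⊓ y)) ^ 2 + (tot (x ⊔ y)) ^ 2) := by
  have hsum : tot (x ⊓ y) + tot (x ⊔ y) = tot x + tot y := by
    apply tot_exchange
    funext o
    simp only [Pi.add_apply, Pi.inf_apply, Pi.sup_apply]
    exact min_add_max _ _
  have hxn : x none ≤ full none := hx none
  have hyn : y none ≤ full none := hy none
  rw [hf] at hxn hyn
  have hmx : tot (x ⊔ y) ≤ tot full := tot_mono (sup_le hx hy)
  have hix : tot (x ⊓ y) ≤ tot x := tot_mono inf_le_left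
  have hiy : tot (x ⊓ y) ≤ tot y := tot_mono inf_le_right
  have htx := tot_mono hx
  have hty := tot_mono hy
  simp only [Pi.le_def, not_forall, not_le] at h1 h2
  obtain ⟨o1, ho1⟩ := h1
  obtain ⟨o2, ho2⟩ := h2
  have hs1 : (∃ i, y (some i) < x (some i)) → tot (x ⊓ y) < tot x := by
    rintro ⟨i, hi⟩
    have his : i ∈ (VS.s : Finset I) := by
      by_contra his
      have h5 := hfs i his
      have h6 : x (some i) ≤ full (some i) := hx (some i)
      omega
    refine tot_strict inf_le_left ⟨i, his, ?_⟩
    simp only [Pi.inf_apply]; omega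
  have hs2 : (∃ i, x (some i) < y (some i)) → tot (x ⊓ y) < tot y := by
    rintro ⟨i, hi⟩
    have his : i ∈ (VS.s : Finset I) := by
      by_contra his
      have h5 := hfs i his
      have h6 : y (some i) ≤ full (some i) := hy (some i)
      omega
    refine tot_strict inf_le_right ⟨i, his, ?_⟩
    simp only [Pi.inf_apply]; omega
  have hin : (x ⊓ y) none = min (x none) (y none) := rfl
  have hma : (x ⊔ y) none = max (x none) (y none) := rfl
  rcases Nat.lt_or_ge (x none) (y none) with hlt | hge
  · -- x none = 0, y none = 1
    left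
    have e1 : x none = 0 := by omega
    have e2 : y none = 1 := by omega
    have : ∃ i, y (some i) < x (some i) := by
      rcases o1 with _ | i
      · omega
      · exact ⟨i, ho1⟩
    have := hs1 this
    unfold chg
    rw [hin, hma, e1, e2]
    simp only [Nat.zero_min, Nat.zero_max, one_ne_zero, ite_false, ite_true]
    omega
  rcases Nat.lt_or_ge (y none) (x none) with hlt | hge'
  · left
    have e1 : y none = 0 := by omega
    have e2 : x none = 1 := by omega
    have : ∃ i, x (some i) < y (some i) := by
      rcases o2 with _ | i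
      · omega
      · exact ⟨i, ho2⟩
    have := hs2 this
    unfold chg
    rw [hin, hma, e1, e2]
    simp only [Nat.min_zero, Nat.max_zero, one_ne_zero, ite_false, ite_true]
    omega
  · right
    have e : x none = y none := by omega
    have t1 : ∃ i, y (some i) < x (some i) := by
      rcases o1 with _ | i
      · omega
      · exact ⟨i, ho1⟩
    have t2 : ∃ i, x (some i) < y (some i) := by
      rcases o2 with _ | i
      · omega
      · exact ⟨i, ho2⟩
    have u1 := hs1 t1
    have u2 := hs2 t2
    constructor
    · unfold chg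
      rw [hin, hma, e]
      simp only [min_self, max_self]
      split_ifs <;> omega
    · nlinarith

end

end Vale.Agent.P291.H906
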