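import Vale.Agent.P291.H906.Kernel
import Vale.Agent.P291.H906.Cut

/-!
# P291 / H906 / End: end of part (I)
-/

open MvPolynomial

set_option linter.unusedSectionVars false

namespace Vale.Agent.P291.H906

variable {I E B Λ : Type*} [Fintype E] [DecidableEq I] [Fintype B] [DecidableEq B] [CommRing Λ]
  [IsDomain Λ]

theorem smul_comm' {Λ' 𝒜 : Type*} [CommRing Λ'] [CommRing 𝒜] [Algebra Λ' 𝒜]
    (P R : Submodule Λ' 𝒜) : P * R = R * P := mul_comm _ _

section rep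

variable (Q : QD I E B Λ)

theorem exists_rep (k : ℕ) : ∀ (d : Fin (k + 1) → DV I) {t : AA B Λ},
    t ∈ SP (PD Q) (ms d) →
    ∃ (ι : Type) (s : Finset ι) (F : ι → Fin (k + 1) → (Finset (Option B) → SS B Λ)),
      (∀ l ∈ s, ∀ j, F l j ∈ Q.EqvD (d j)) ∧ t = ∑ l ∈ s, ∏ j, Q.M (F l j) := by
  induction k with
  | zero =>
    intro d t ht
    rw [ms_succ, SP_cons] at ht
    have h1 : SP (PD Q) (ms fun j : Fin 0 => d j.succ) = 1 := by
      simp [SP, ms]
    rw [h1, mul_one] at ht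
    obtain ⟨F, hF, rfl⟩ := ht
    refine ⟨Unit, {()}, fun _ _ => F, ?_, ?_⟩
    · intro l _ j
      have : j = 0 := Subsingleton.elim (α := Fin 1) _ _
      rw [this]
      exact hF
    · rw [Finset.sum_singleton]
      exact (Fin.prod_univ_one (fun _ : Fin 1 => Q.M F)).symm
  | succ k ih =>
    intro d t ht
    rw [ms_succ, SP_cons] at ht
    induction ht using Submodule.mul_induction_on' with
    | mem_mul_mem m hm n hn =>
      obtain ⟨G, hG, rfl⟩ := hm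
      obtain ⟨ι, s, F, hF, rfl⟩ := ih _ hn
      refine ⟨ι, s, fun l => Fin.cons G (F l), ?_, ?_⟩
      · intro l hl j
        refine Fin.cases ?_ (fun j => ?_) j
        · simp only [Fin.cons_zero]
          exact hG
        · simp only [Fin.cons_succ]
          exact hF l hl j
      · rw [Finset.mul_sum]
        refine Finset.sum_congr rfl fun l _ => ?_
        have h := Fin.prod_univ_succ (fun j : Fin (k + 2) => Q.M
          ((Fin.cons G (F l) : Fin (k + 2) → Finset (Option B) → SS B Λ) j))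
        simp only [Fin.cons_zero, Fin.cons_succ] at h
        exact h.symm
    | add x _ y _ hx hy =>
      obtain ⟨ι, s, F, hF, rfl⟩ := hx
      obtain ⟨ι', s', F', hF', rfl⟩ := hy
      refine ⟨ι ⊕ ι', s.disjSum s', Sum.elim F F', ?_, ?_⟩
      · intro l hl j
        rcases Finset.mem_disjSum.1 hl with ⟨a, ha, rfl⟩ | ⟨a, ha, rfl⟩
        · exact hF a ha j
        · exact hF' a ha j
      · rw [Finset.sum_disjSum]
        rfl

theorem coeff_prod {k : ℕ} (F : Fin k → Finset (Option B) → SS B Λ) (mu : B → ℤ) :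
    (∏ j, Q.M (F j)).coeff mu = ∑ V : Fin k → Finset (Option B) with ∑ j, lamV (V j) = mu,
      toK (∏ j, F j (V j)) * ∏ j, Q.e (lamV (V j)) := by
  have h := MT_pure Q k 1 F
  rw [cst_one, one_mul] at h
  rw [← h, MT_coeff]
  refine Finset.sum_congr rfl fun V _ => ?_
  rw [one_mul]

theorem coeff_bound {k : ℕ} {d : Fin k → DV I} {ι : Type} {s : Finset ι}
    {F : ι → Fin k → (Finset (Option B) → SS B Λ)} (hF : ∀ l ∈ s, ∀ j, F l j ∈ Q.EqvD (d j))
    {mu : B → ℤ} (h : (∑ l ∈ s, ∏ j, Q.M (F l j)).coeff mu ≠ 0) :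
    ∃ V : Fin k → Finset (Option B), (∀ j, Q.dm (V j) = d j) ∧ ∑ j, lamV (V j) = mu := by
  rw [AddMonoidAlgebra.coeff_sum, Finsupp.finsetSum_apply] at h
  obtain ⟨l, hl, hl'⟩ := Finset.exists_ne_zero_of_sum_ne_zero h
  rw [coeff_prod] at hl'
  obtain ⟨V, hV, hV'⟩ := Finset.exists_ne_zero_of_sum_ne_zero hl'
  refine ⟨V, fun j => (hF l hl j).2 _ fun h0 => hV' ?_, (Finset.mem_filter.1 hV).2⟩
  rw [Finset.prod_eq_zero (Finset.mem_univ j) h0]
  simp [toK]

end rep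

variable [VS I] (Q : QD I E B Λ)

theorem coeff_top (hfs : ∀ i, i ∉ (VS.s : Finset I) → full Q (some i) = 0) {k : ℕ}
    {d : Fin (k + 1) → DV I} (hd : Monotone d) (hnt : ∀ j, Nt (full Q) (d j)) {ι : Type}
    {s : Finset ι} {F : ι → Fin (k + 1) → (Finset (Option B) → SS B Λ)}
    (hF : ∀ l ∈ s, ∀ j, F l j ∈ Q.EqvD (d j)) {V : Fin (k + 1) → Finset (Option B)}
    (hV : Monotone V) (hVd : ∀ j, Q.dm (V j) = d j) :
    (∑ l ∈ s, ∏ j, Q.M (F l j)).coeff (∑ j, lamV (V j)) =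
      toK (∑ l ∈ s, ∏ j, F l j (V j)) * ∏ j, Q.e (lamV (V j)) := by
  rw [AddMonoidAlgebra.coeff_sum, Finsupp.finsetSum_apply]
  have h1 : toK (∑ l ∈ s, ∏ j, F l j (V j)) = ∑ l ∈ s, toK (∏ j, F l j (V j)) := by
    simp only [toK, map_sum]
  rw [h1, Finset.sum_mul]
  refine Finset.sum_congr rfl fun l hl => ?_
  rw [coeff_prod]
  refine Finset.sum_eq_single_of_mem V (Finset.mem_filter.2 ⟨Finset.mem_univ _, rfl⟩) ?_
  intro V' hV' hne
  have hV'' := (Finset.mem_filter.1 hV').2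
  by_contra hcon
  have hdV' : ∀ j, Q.dm (V' j) = d j := fun j => (hF l hl j).2 _ fun h0 => hcon (by
    rw [Finset.prod_eq_zero (Finset.mem_univ j) h0]
    simp [toK])
  have hdm : (fun j => Q.dm (V j)) = d := funext hVd
  have hdm' : (fun j => Q.dm (V' j)) = d := funext hdV'
  have n1 := (norm_tuple Q hfs V (by rw [hdm]; exact hd)).2.2 hV
  have n2 := (norm_tuple Q hfs V' (by rw [hdm']; exact hd)).2
  rw [hdm] at n1
  rw [hdm', hV'', n1] at n2
  have hmono : Monotone V' := n2.1 rfl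
  have hntV : ∀ j, Nt (full Q) (Q.dm (V j)) := fun j => by rw [hVd]; exact hnt j
  have hntV' : ∀ j, Nt (full Q) (Q.dm (V' j)) := fun j => by rw [hdV']; exact hnt j
  have hu := chain_unique hmono hV (fun j => (Nt_ne Q (hntV' j)).1)
    (fun j => (Nt_ne Q (hntV' j)).2) (fun j => (Nt_ne Q (hntV j)).1)
    (fun j => (Nt_ne Q (hntV j)).2) hV''
  exact hne (funext fun j => hu.2 j j rfl)

/-- support of elements of `SP PD C` for a chain `C` -/
theorem SP_supp (hfs : ∀ i, i ∉ (VS.s : Finset I) → full Q (some i) = 0)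
    {C : Multiset (DV I)} (hC : IsCh (full Q) C) {t : AA B Λ} (ht : t ∈ SP (PD Q) C)
    {mu : B → ℤ} (h : t.coeff mu ≠ 0) :
    nrm mu ≤ Phi (full Q) C ∧ (nrm mu = Phi (full Q) C →
      ∃ (k : ℕ) (V : Fin (k + 1) → Finset (Option B)), Monotone V ∧
        (∀ j, Nt (full Q) (Q.dm (V j))) ∧ C = ms (fun j => Q.dm (V j)) ∧
        ∑ j, lamV (V j) = mu) := by
  obtain ⟨k, hk⟩ : ∃ k, Multiset.card C = k + 1 :=
    Nat.exists_eq_succ_of_ne_zero fun h => hC.1 (Multiset.card_eq_zero.1 h)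
  obtain ⟨d, hd, rfl⟩ := exists_ms k C hk hC.2.2
  have hnt : ∀ j, Nt (full Q) (d j) := fun j => hC.2.1 _ ((mem_ms d).2 ⟨j, rfl⟩)
  obtain ⟨ι, s, F, hF, rfl⟩ := exists_rep Q k d ht
  obtain ⟨V, hVd, hV⟩ := coeff_bound Q hF h
  have hdm : (fun j => Q.dm (V j)) = d := funext hVd
  have n1 := norm_tuple Q hfs V (by rw [hdm]; exact hd)
  rw [hdm, hV] at n1
  refine ⟨n1.1, fun heq => ⟨k, V, n1.2.1 heq, fun j => by rw [hVd]; exact hnt j, ?_, hV⟩⟩
  rw [hdm]

theorem hpair [Algebra ℚ Λ] (hQ : Q.NonzeroLoops) (x y : DV I) :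
    PD Q x * PD Q y ≤
      ⨆ a : {a : DV I // a ≤ x ⊓ y ∧ x + y - a ≤ full Q}, PD Q (x + y - a.1) * PD Q a.1 := by
  rw [Submodule.mul_le]
  rintro _ ⟨F, hF, rfl⟩ _ ⟨G, hG, rfl⟩
  have h := pair_straighten Q hQ x y hF hG
  simp only [PP_eq] at h
  refine (iSup_le fun a => ?_ : _ ≤ ⨆ a : {a : DV I // a ≤ x ⊓ y ∧ x + y - a ≤ full Q},
    PD Q (x + y - a.1) * PD Q a.1) h
  by_cases hf : x + y - a.1 ≤ full Q
  · exact le_iSup (fun a : {a : DV I // a ≤ x ⊓ y ∧ x + y - a ≤ full Q} =>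
      PD Q (x + y - a.1) * PD Q a.1) ⟨a.1, a.2, hf⟩
  · rw [PD_bot Q hf, Submodule.bot_mul]
    exact bot_le

theorem rew [Algebra ℚ Λ] (hQ : Q.NonzeroLoops)
    (hfs : ∀ i, i ∉ (VS.s : Finset I) → full Q (some i) = 0) {D : Multiset (DV I)}
    (hD : ∀ a ∈ D, a ≤ full Q) (hnt : ∃ a ∈ D, Nt (full Q) a) :
    SP (PD Q) D ≤ Z (full Q) (PD Q) (RS Q) (Phi (full Q) D) :=
  rewriting (full_none Q) hfs (PD_zero Q) (PD_full Q) (RS_mul_PD Q)
    (fun x y _ _ => hpair Q hQ x y) D hD hnt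

theorem SP_le_RS {D : Multiset (DV I)} (hD : ∀ a ∈ D, a = 0 ∨ a = full Q) :
    SP (PD Q) D ≤ RS Q := by
  induction D using Multiset.induction with
  | empty =>
    unfold SP
    rw [Multiset.map_zero, Multiset.prod_zero]
    exact Submodule.one_le.2 (one_mem_RS Q)
  | cons a D ih =>
    have h1 := ih fun b hb => hD b (Multiset.mem_cons_of_mem hb)
    have h2 : PD Q a = RS Q := by
      rcases hD a (Multiset.mem_cons_self _ _) with rfl | rfl
      · exact PD_zero Q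
      · exact PD_full Q
    have h3 : RS Q * RS Q = RS Q := by
      have := RS_mul_PD Q (0 : DV I)
      rwa [PD_zero] at this
    rw [SP_cons, h2]
    calc RS Q * SP (PD Q) D ≤ RS Q * RS Q := by gcongr
      _ = RS Q := h3

theorem triv_of_not_Nt {a : DV I} (ha : a ≤ full Q) (h : ¬ Nt (full Q) a) :
    a = 0 ∨ a = full Q := by
  by_contra hcon
  rw [not_or] at hcon
  exact h ⟨hcon.1, hcon.2, ha⟩

theorem SP_le_P2 {D : Multiset (DV I)} (hD : ∀ a ∈ D, a ≤ full Q)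
    (hnt : ∃ a ∈ D, Nt (full Q) a) (hcard : Multiset.card D ≤ 2) :
    SP (PD Q) D ≤ P2 (full Q) (PD Q) := by
  obtain ⟨a, ha, hant⟩ := hnt
  obtain ⟨D', rfl⟩ := Multiset.exists_cons_of_mem ha
  rw [Multiset.card_cons] at hcard
  rcases Nat.eq_zero_or_pos (Multiset.card D') with h0 | h0
  · rw [Multiset.card_eq_zero] at h0
    subst h0
    rw [SP_cons]
    have : SP (PD Q) (0 : Multiset (DV I)) = 1 := by simp [SP]
    rw [this, mul_one]
    exact le_P2_one hant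
  · have h1 : Multiset.card D' = 1 := by omega
    obtain ⟨b, rfl⟩ := Multiset.card_eq_one.1 h1
    have hb : b ≤ full Q := hD b (Multiset.mem_cons_of_mem (Multiset.mem_singleton_self b))
    have : SP (PD Q) (a ::ₘ {b}) = PD Q a * PD Q b := by
      simp [SP]
    rw [this]
    by_cases hbnt : Nt (full Q) b
    · exact le_P2_two hant hbnt
    · have h2 : PD Q b = RS Q := by
        rcases triv_of_not_Nt Q hb hbnt with rfl | rfl
        · exact PD_zero Q
        · exact PD_full Q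
      have h3 : PD Q a * RS Q = PD Q a := (smul_comm' _ _).trans (RS_mul_PD Q a)
      rw [h2, h3]
      exact le_P2_one hant

/-- a lower combination: consequence of the kernel lemma and of rewriting -/
theorem lower [Algebra ℚ Λ] (hQ : Q.NonzeroLoops)
    (hfs : ∀ i, i ∉ (VS.s : Finset I) → full Q (some i) = 0) {C : Multiset (DV I)}
    (hC : IsCh (full Q) C) {t : AA B Λ} (ht : t ∈ SP (PD Q) C) (hK : t ∈ KT Q C) :
    t ∈ Z (full Q) (PD Q) (RS Q) (Phi (full Q) C - 1) := by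
  have hlow : ∀ D : Multiset (DV I), Low (full Q) D C → (∀ a ∈ D, a ≤ full Q) →
      (∃ a ∈ D, Nt (full Q) a) →
      SP (PD Q) D ≤ Z (full Q) (PD Q) (RS Q) (Phi (full Q) C - 1) := by
    intro D h1 h2 h3
    refine (rew Q hQ hfs h2 h3).trans (Z_mono ?_)
    have := h1.lt
    omega
  by_cases hcard : Multiset.card C ≤ 2
  · set Qs : Submodule Λ (AA B Λ) := ⨆ D : {D : Multiset (DV I) // Low (full Q) D C ∧
      (∀ a ∈ D, a ≤ full Q) ∧ Multiset.card D = Multiset.card C ∧ ∃ a ∈ D, Nt (full Q) a},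
      SP (PD Q) D.1 with hQs
    have hQsP : Qs ≤ P2 (full Q) (PD Q) := iSup_le fun D =>
      SP_le_P2 Q D.2.2.1 D.2.2.2.2 (by rw [D.2.2.2.1]; exact hcard)
    have hQsZ : Qs ≤ Z (full Q) (PD Q) (RS Q) (Phi (full Q) C - 1) := iSup_le fun D =>
      hlow D.1 D.2.1 D.2.2.1 D.2.2.2.2
    have hKT : KT Q C ≤ RS Q ⊔ Qs := by
      refine iSup_le fun D => ?_
      by_cases hnt : ∃ a ∈ D.1, Nt (full Q) a
      · exact le_sup_of_le_right (le_iSup (fun D : {D : Multiset (DV I) // Low (full Q) D C ∧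
          (∀ a ∈ D, a ≤ full Q) ∧ Multiset.card D = Multiset.card C ∧ ∃ a ∈ D, Nt (full Q) a} =>
          SP (PD Q) D.1) ⟨D.1, D.2.1, D.2.2.1, D.2.2.2.1, hnt⟩)
      · refine le_sup_of_le_left (SP_le_RS Q fun a ha => ?_)
        exact triv_of_not_Nt Q (D.2.2.1 a ha) fun h => hnt ⟨a, ha, h⟩
    have hCP : SP (PD Q) C ≤ P2 (full Q) (PD Q) := by
      refine SP_le_P2 Q (fun a ha => (hC.2.1 a ha).2.2) ?_ hcard
      obtain ⟨a, ha⟩ := Multiset.exists_mem_of_ne_zero hC.1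
      exact ⟨a, ha, hC.2.1 a ha⟩
    have h1 : t ∈ (RS Q ⊔ Qs) ⊓ P2 (full Q) (PD Q) := ⟨hKT hK, hCP ht⟩
    have hmod : (RS Q ⊔ Qs) ⊓ P2 (full Q) (PD Q) = (RS Q ⊓ P2 (full Q) (PD Q)) ⊔ Qs := by
      rw [sup_comm (RS Q) Qs, sup_inf_assoc_of_le (RS Q) hQsP, sup_comm]
    rw [hmod] at h1
    exact (sup_le (le_sup_of_le_left le_rfl) hQsZ : (RS Q ⊓ P2 (full Q) (PD Q)) ⊔ Qs ≤ _) h1
  · refine (iSup_le fun D => ?_ : KT Q C ≤ _) hK
    refine hlow D.1 D.2.1 D.2.2.1 ?_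
    rcases D.2.2.2.2 with h | h
    · exact absurd h hcard
    · exact h

theorem nrm_zero : nrm (0 : B → ℤ) = 0 := by
  simp [nrm]

theorem RS_coeff {t : AA B Λ} (ht : t ∈ RS Q) {mu : B → ℤ} (hmu : mu ≠ 0) : t.coeff mu = 0 := by
  obtain ⟨r, -, rfl⟩ := ht
  rw [cstL_apply]
  unfold QD.cst
  rw [AddMonoidAlgebra.coeff_single, Finsupp.single_apply, if_neg (Ne.symm hmu)]

theorem step [Algebra ℚ Λ] (hQ : Q.NonzeroLoops)
    (hfs : ∀ i, i ∉ (VS.s : Finset I) → full Q (some i) = 0) {z : AA B Λ} (hz : z ∈ RS Q)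
    {N : ℤ} (hN : 0 < N) (h : z ∈ Z (full Q) (PD Q) (RS Q) N) :
    z ∈ Z (full Q) (PD Q) (RS Q) (N - 1) := by
  classical
  unfold Z at h
  obtain ⟨j, hj, y, hy, hjy⟩ := Submodule.mem_sup.1 h
  obtain ⟨t, ht, hty⟩ := (Submodule.mem_iSup_iff_exists_finsupp _ _).1 hy
  have hjy' : z = j + ∑ C ∈ t.support, t C := by
    rw [← hjy, ← hty]; rfl
  rw [hjy']
  refine add_mem ((le_sup_left : J2 (full Q) (PD Q) (RS Q) ≤ _) hj) (sum_mem fun C hCs => ?_)
  rcases lt_or_eq_of_le C.2.2 with hlt | heq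
  · exact SP_le_Z C.2.1 (by omega) (ht C)
  have hC := C.2.1
  suffices hsuff : t C ∈ Z (full Q) (PD Q) (RS Q) (Phi (full Q) C.1 - 1) from
    (Z_mono (by omega) : _ ≤ Z (full Q) (PD Q) (RS Q) (N - 1)) hsuff
  refine lower Q hQ hfs hC (ht C) ?_
  obtain ⟨k, hk⟩ : ∃ k, Multiset.card C.1 = k + 1 :=
    Nat.exists_eq_succ_of_ne_zero fun h => hC.1 (Multiset.card_eq_zero.1 h)
  obtain ⟨d, hd, hdC⟩ := exists_ms k C.1 hk hC.2.2
  have hnt : ∀ j, Nt (full Q) (d j) := fun j => hC.2.1 _ (hdC ▸ (mem_ms d).2 ⟨j, rfl⟩)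
  have htC := ht C
  rw [← hdC] at htC
  obtain ⟨ι, s, F, hF, hrep⟩ := exists_rep Q k d htC
  rw [← hdC, hrep]
  refine kernel_lemma Q hQ hfs k d hd hnt ι s F hF fun V hV hVd => ?_
  -- the leading coefficient
  have hdm : (fun j => Q.dm (V j)) = d := funext hVd
  have hnrm : nrm (∑ j, lamV (V j)) = N := by
    have := (norm_tuple Q hfs V (by rw [hdm]; exact hd)).2.2 hV
    rw [hdm, hdC, heq] at this
    exact this
  have hmu : ∑ j, lamV (V j) ≠ 0 := by
    intro h0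
    rw [h0, nrm_zero] at hnrm
    omega
  have htop := coeff_top Q hfs hd hnt hF hV hVd
  rw [← hrep] at htop
  have hntV : ∀ j, Nt (full Q) (Q.dm (V j)) := fun j => by rw [hVd]; exact hnt j
  have hcoef : (t C).coeff (∑ j, lamV (V j)) = 0 := by
    have h1 : z.coeff (∑ j, lamV (V j)) = 0 := RS_coeff Q hz hmu
    rw [hjy', AddMonoidAlgebra.coeff_add, Finsupp.add_apply, RS_coeff Q hj.1 hmu, zero_add,
      AddMonoidAlgebra.coeff_sum, Finsupp.finsetSum_apply] at h1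
    rw [Finset.sum_eq_single_of_mem C hCs] at h1
    · exact h1
    · intro C' _ hne
      by_contra hcon
      obtain ⟨h2, h3⟩ := SP_supp Q hfs C'.2.1 (ht C') hcon
      have h4 : nrm (∑ j, lamV (V j)) = Phi (full Q) C'.1 := by
        have := C'.2.2
        omega
      obtain ⟨k', V', hV', hntV', hC', hsum⟩ := h3 h4
      have hu := chain_unique hV' hV (fun j => (Nt_ne Q (hntV' j)).1)
        (fun j => (Nt_ne Q (hntV' j)).2) (fun j => (Nt_ne Q (hntV j)).1)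
        (fun j => (Nt_ne Q (hntV j)).2) hsum
      obtain ⟨hkk, hu⟩ := hu
      subst hkk
      apply hne
      apply Subtype.ext
      rw [hC', ← hdC, ← hdm]
      congr 1
      funext j
      rw [hu j j rfl]
  rw [hcoef] at htop
  have he : ∏ j, Q.e (lamV (V j)) ≠ 0 := Finset.prod_ne_zero_iff.2 fun j _ => e_ne_zero Q _
  have h5 : toK (∑ l ∈ s, ∏ j, F l j (V j)) = 0 := by
    rcases mul_eq_zero.1 htop.symm with h | h
    · exact h
    · exact absurd h he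
  by_contra h6
  exact toK_ne_zero h6 h5

theorem TI_le (hQ : Q.NonzeroLoops) [Algebra ℚ Λ]
    (hfs : ∀ i, i ∉ (VS.s : Finset I) → full Q (some i) = 0) {z : AA B Λ} (hz : z ∈ TI Q) :
    ∃ n : ℕ, z ∈ Z (full Q) (PD Q) (RS Q) n := by
  have h1 : TI Q ≤ ⨆ n : ℕ, Z (full Q) (PD Q) (RS Q) (n : ℤ) := by
    refine iSup_le fun D => ?_
    refine (rew Q hQ hfs D.2.1 D.2.2).trans ?_
    refine (Z_mono (Int.self_le_toNat _)).trans ?_
    exact le_iSup (fun n : ℕ => Z (full Q) (PD Q) (RS Q) (n : ℤ)) _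
  have h2 := h1 hz
  rw [Submodule.mem_iSup_of_directed] at h2
  · exact h2
  · intro a b
    exact ⟨max a b, Z_mono (by simp), Z_mono (by simp)⟩

theorem final [Algebra ℚ Λ] (hQ : Q.NonzeroLoops)
    (hfs : ∀ i, i ∉ (VS.s : Finset I) → full Q (some i) = 0) {f : SS B Λ} (hf : f ∈ Q.JC) :
    f ∈ Q.JD := by
  obtain ⟨hfR, hfI⟩ := hf
  have hzR : QD.cst f ∈ RS Q := ⟨f, hfR, rfl⟩
  obtain ⟨n, hn⟩ := TI_le Q hQ hfs (II_le_TI Q hfI)
  have h0 : QD.cst f ∈ Z (full Q) (PD Q) (RS Q) 0 := by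
    induction n with
    | zero => exact_mod_cast hn
    | succ n ih =>
      apply ih
      have := step Q hQ hfs hzR (by positivity) hn
      rwa [Nat.cast_succ, add_sub_cancel_right] at this
  have h1 : Z (full Q) (PD Q) (RS Q) 0 ≤ J2 (full Q) (PD Q) (RS Q) := by
    unfold Z
    refine sup_le le_rfl (iSup_le fun C => ?_)
    have := Phi_pos (full_none Q) hfs C.2.1
    have := C.2.2
    omega
  exact JD_of_P2 Q hfR (h1 h0).2

end Vale.Agent.P291.H906
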