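import Vale.Agent.P291.H906.Rewrite
import Vale.Agent.P291.QBlk
import Vale.Agent.P291.TBlk

/-!
# P291 / H906 / Gen: the concrete submodules of generators with given dimension vector
-/

open MvPolynomial

set_option linter.unusedSectionVars false

namespace Vale.Agent.P291.H906

variable {I E B Λ : Type*} [Fintype E] [DecidableEq I] [Fintype B] [DecidableEq B] [CommRing Λ]
  [IsDomain Λ]
variable (Q : QD I E B Λ)

/-- `M` as a linear map -/
noncomputable def ML : (Finset (Option B) → SS B Λ) →ₗ[Λ] AA B Λ where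
  toFun := Q.M
  map_add' F G := by
    unfold QD.M
    rw [← Finset.sum_add_distrib]
    refine Finset.sum_congr rfl fun V _ => ?_
    rw [← AddMonoidAlgebra.single_add]
    congr 1
    simp only [toK, Pi.add_apply, map_add]
    ring
  map_smul' c F := by
    unfold QD.M
    rw [RingHom.id_apply, Finset.smul_sum]
    refine Finset.sum_congr rfl fun V _ => ?_
    rw [AddMonoidAlgebra.smul_single]
    congr 1
    simp only [toK, Pi.smul_apply]
    rw [Algebra.smul_def c (F V), map_mul, ← IsScalarTower.algebraMap_apply,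
      Algebra.smul_def, mul_assoc]

theorem ML_apply (F : Finset (Option B) → SS B Λ) : ML Q F = Q.M F := rfl

/-- `cst` as a linear map -/
noncomputable def cstL : SS B Λ →ₗ[Λ] AA B Λ where
  toFun := QD.cst
  map_add' f g := by
    unfold QD.cst
    rw [← AddMonoidAlgebra.single_add]
    simp only [toK, map_add]
  map_smul' c f := by
    unfold QD.cst
    rw [RingHom.id_apply, AddMonoidAlgebra.smul_single]
    congr 1
    simp only [toK]
    rw [Algebra.smul_def c f, map_mul, ← IsScalarTower.algebraMap_apply, Algebra.smul_def]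

theorem cstL_apply (f : SS B Λ) : cstL f = QD.cst f := rfl

/-- the full dimension vector -/
def full : DV I := Q.dm Finset.univ

theorem full_none : full Q none = 1 := by
  unfold full QD.dm
  rw [Finset.card_eq_one]
  refine ⟨none, ?_⟩
  ext o
  rcases o with _ | b
  · simp [QD.vo]
  · simp [QD.vo]

theorem dm_le_full (V : Finset (Option B)) : Q.dm V ≤ full Q := by
  intro i
  exact Finset.card_le_card (Finset.filter_subset_filter _ (Finset.subset_univ V))

theorem dm_empty : Q.dm ∅ = 0 := by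
  funext i; simp [QD.dm]

theorem dm_mono {V V' : Finset (Option B)} (h : V ⊆ V') : Q.dm V ≤ Q.dm V' := by
  intro i
  exact Finset.card_le_card (Finset.filter_subset_filter _ h)

theorem dm_eq_zero {V : Finset (Option B)} (h : Q.dm V = 0) : V = ∅ := by
  by_contra hne
  obtain ⟨o, ho⟩ := Finset.nonempty_iff_ne_empty.2 hne
  have h1 := congrFun h (Q.vo o)
  simp only [QD.dm, Pi.zero_apply, Finset.card_eq_zero] at h1
  have : o ∈ V.filter fun o' => Q.vo o' = Q.vo o := Finset.mem_filter.2 ⟨ho, rfl⟩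
  rw [h1] at this
  exact absurd this (Finset.notMem_empty o)

theorem eq_of_dm {V V' : Finset (Option B)} (h : V ⊆ V') (hd : Q.dm V = Q.dm V') : V = V' := by
  refine Finset.Subset.antisymm h fun o ho => ?_
  have h1 := congrFun hd (Q.vo o)
  unfold QD.dm at h1
  have h2 : (V.filter fun o' => Q.vo o' = Q.vo o) = V'.filter fun o' => Q.vo o' = Q.vo o :=
    Finset.eq_of_subset_of_card_le (Finset.filter_subset_filter _ h) h1.ge
  have : o ∈ V'.filter fun o' => Q.vo o' = Q.vo o := Finset.mem_filter.2 ⟨ho, rfl⟩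
  rw [← h2] at this
  exact (Finset.mem_filter.1 this).1

theorem dm_eq_full {V : Finset (Option B)} (h : Q.dm V = full Q) : V = Finset.univ :=
  eq_of_dm Q (Finset.subset_univ V) h

theorem vo_vact {σ : Equiv.Perm B} (hσ : σ ∈ Q.W) (o : Option B) :
    Q.vo (Equiv.optionCongr σ o) = Q.vo o := by
  rcases o with _ | b
  · rfl
  · simp only [QD.vo, Equiv.optionCongr_apply, Option.map_some]
    rw [hσ b]

theorem dm_vact {σ : Equiv.Perm B} (hσ : σ ∈ Q.W) (V : Finset (Option B)) :
    Q.dm (vact σ V) = Q.dm V := by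
  funext i
  unfold QD.dm vact
  rw [Finset.filter_map, Finset.card_map]
  congr 1
  refine Finset.filter_congr fun o _ => ?_
  simp only [Function.comp_apply, Equiv.coe_toEmbedding]
  rw [vo_vact Q hσ]

/-- equivariant dressings with given dimension vector, as a submodule -/
def EqvS (d : DV I) : Submodule Λ (Finset (Option B) → SS B Λ) where
  carrier := Q.EqvD d
  add_mem' := by
    rintro F G ⟨hF, hF'⟩ ⟨hG, hG'⟩
    refine ⟨add_mem hF hG, fun V hV => ?_⟩
    by_cases h : F V = 0
    · refine hG' V fun h' => hV ?_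
      rw [Pi.add_apply, h, h', add_zero]
    · exact hF' V h
  zero_mem' := ⟨zero_mem _, fun V hV => absurd rfl hV⟩
  smul_mem' := by
    rintro c F ⟨hF, hF'⟩
    refine ⟨Subalgebra.smul_mem _ hF c, fun V hV => hF' V fun h => hV ?_⟩
    rw [Pi.smul_apply, h, smul_zero]

theorem mem_EqvS {d : DV I} {F : Finset (Option B) → SS B Λ} :
    F ∈ EqvS Q d ↔ F ∈ Q.EqvD d := Iff.rfl

/-- generators of given dimension vector -/
noncomputable def PD (d : DV I) : Submodule Λ (AA B Λ) := (EqvS Q d).map (ML Q)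

theorem mem_PD {d : DV I} {z : AA B Λ} : z ∈ PD Q d ↔ ∃ F ∈ Q.EqvD d, Q.M F = z := Iff.rfl

theorem M_mem_PD {d : DV I} {F : Finset (Option B) → SS B Λ} (hF : F ∈ Q.EqvD d) :
    Q.M F ∈ PD Q d := ⟨F, hF, rfl⟩

/-- constants -/
noncomputable def RS : Submodule Λ (AA B Λ) := (Subalgebra.toSubmodule Q.R).map cstL

theorem mem_RS {z : AA B Λ} : z ∈ RS Q ↔ ∃ r ∈ Q.R, QD.cst r = z := Iff.rfl

theorem PP_eq (d d' : DV I) : Q.PP d d' = PD Q d * PD Q d' := by
  unfold QD.PP
  rw [Submodule.mul_eq_span_mul_set]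
  congr 1
  ext z
  constructor
  · rintro ⟨F, hF, G, hG, rfl⟩
    exact Set.mul_mem_mul (M_mem_PD Q hF) (M_mem_PD Q hG)
  · rintro ⟨x, ⟨F, hF, rfl⟩, y, ⟨G, hG, rfl⟩, rfl⟩
    exact ⟨F, hF, G, hG, rfl⟩

theorem PD_bot {d : DV I} (h : ¬ d ≤ full Q) : PD Q d = ⊥ := by
  rw [eq_bot_iff]
  rintro z ⟨F, hF, rfl⟩
  have : F = 0 := by
    funext V
    by_contra hV
    exact h (hF.2 V hV ▸ dm_le_full Q V)
  rw [this, map_zero]
  exact zero_mem _

theorem cst_one : (QD.cst (1 : SS B Λ) : AA B Λ) = 1 := by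
  unfold QD.cst
  have h : toK (1 : SS B Λ) = 1 := map_one _
  rw [h]
  rfl

theorem one_mem_RS : (1 : AA B Λ) ∈ RS Q :=
  (mem_RS Q).2 ⟨1, one_mem Q.R, cst_one⟩

theorem M_single (V : Finset (Option B)) (r : SS B Λ) (hV : lamV V = 0) :
    Q.M (fun V' => if V' = V then r else 0) = QD.cst r := by
  unfold QD.M QD.cst
  rw [Finset.sum_eq_single V]
  · beta_reduce
    rw [hV, e_zero, if_pos rfl, mul_one]
  · intro V' _ hV'
    beta_reduce
    rw [if_neg hV']
    simp [toK]
  · intro h; exact absurd (Finset.mem_univ _) h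

theorem lamV_empty : lamV (∅ : Finset (Option B)) = 0 := by
  funext b; simp [lamV]

theorem lamV_univ : lamV (Finset.univ : Finset (Option B)) = 0 := by
  funext b; simp [lamV]

theorem single_mem_EqvD {V : Finset (Option B)} {r : SS B Λ} (hr : r ∈ Q.R)
    (hV : ∀ σ V', vact σ V' = V ↔ V' = V) :
    (fun V' => if V' = V then r else 0) ∈ Q.EqvD (Q.dm V) := by
  constructor
  · intro σ hσ V'
    show (if vact σ V' = V then r else 0) = rename σ (if V' = V then r else 0)
    simp only [hV]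
    split_ifs
    · exact (hr σ hσ).symm
    · simp
  · intro V' h
    by_cases h' : V' = V
    · rw [h']
    · simp [h'] at h

theorem F_inv_mem_R {F : Finset (Option B) → SS B Λ} (hF : F ∈ Q.Eqv) {V : Finset (Option B)}
    (hV : ∀ σ, vact σ V = V) : F V ∈ Q.R := by
  intro σ hσ
  have := hF σ hσ V
  rw [hV σ] at this
  exact this.symm

theorem PD_zero : PD Q 0 = RS Q := by
  apply le_antisymm
  · rintro z ⟨F, hF, rfl⟩
    have hF0 : F = fun V' => if V' = ∅ then F ∅ else 0 := by
      funext V'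
      by_cases h : V' = ∅
      · rw [if_pos h, h]
      · rw [if_neg h]
        by_contra h'
        exact h (dm_eq_zero Q (hF.2 V' h'))
    rw [hF0]
    refine ⟨F ∅, F_inv_mem_R Q hF.1 (fun σ => TB.vact_empty σ), ?_⟩
    rw [ML_apply, M_single Q ∅ (F ∅) lamV_empty]
    rfl
  · rintro z ⟨r, hr, rfl⟩
    refine ⟨fun V' => if V' = ∅ then r else 0, ?_, ?_⟩
    · have := single_mem_EqvD Q (V := ∅) hr (fun σ V' => TB.vact_eq_empty)
      rwa [dm_empty] at this
    · rw [ML_apply, M_single Q ∅ r lamV_empty]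
      rfl

theorem PD_full : PD Q (full Q) = RS Q := by
  apply le_antisymm
  · rintro z ⟨F, hF, rfl⟩
    have hF0 : F = fun V' => if V' = Finset.univ then F Finset.univ else 0 := by
      funext V'
      by_cases h : V' = Finset.univ
      · rw [if_pos h, h]
      · rw [if_neg h]
        by_contra h'
        exact h (dm_eq_full Q (hF.2 V' h'))
    rw [hF0]
    refine ⟨F Finset.univ, F_inv_mem_R Q hF.1 (fun σ => TB.vact_univ σ), ?_⟩
    rw [ML_apply, M_single Q Finset.univ (F Finset.univ) lamV_univ]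
    rfl
  · rintro z ⟨r, hr, rfl⟩
    refine ⟨fun V' => if V' = Finset.univ then r else 0, ?_, ?_⟩
    · exact single_mem_EqvD Q (V := Finset.univ) hr (fun σ V' => TB.vact_eq_univ)
    · rw [ML_apply, M_single Q Finset.univ r lamV_univ]
      rfl

theorem cst_mul_M (r : SS B Λ) (F : Finset (Option B) → SS B Λ) :
    QD.cst r * Q.M F = Q.M (fun V => r * F V) := by
  unfold QD.M QD.cst
  rw [Finset.mul_sum]
  refine Finset.sum_congr rfl fun V _ => ?_
  rw [AddMonoidAlgebra.single_mul_single, zero_add]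
  congr 1
  simp only [toK, map_mul]
  ring

theorem smul_mem_EqvD {d : DV I} {r : SS B Λ} (hr : r ∈ Q.R) {F : Finset (Option B) → SS B Λ}
    (hF : F ∈ Q.EqvD d) : (fun V => r * F V) ∈ Q.EqvD d := by
  refine ⟨fun σ hσ V => ?_, fun V hV => hF.2 V fun h => hV ?_⟩
  · show r * F (vact σ V) = rename σ (r * F V)
    rw [map_mul, hr σ hσ, hF.1 σ hσ V]
  · simp only [h, mul_zero]

theorem RS_mul_PD (d : DV I) : RS Q * PD Q d = PD Q d := by
  apply le_antisymm
  · rw [Submodule.mul_le]
    rintro x ⟨r, hr, rfl⟩ y ⟨F, hF, rfl⟩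
    exact ⟨fun V => r * F V, smul_mem_EqvD Q hr hF, (cst_mul_M Q r F).symm⟩
  · intro z hz
    have := Submodule.mul_mem_mul (one_mem_RS Q) hz
    rwa [one_mul] at this

/-- the vertices carrying boxes -/
@[reducible] def vsQ : VS I := ⟨Finset.univ.image Q.vx⟩

theorem full_some {i : I} (hi : i ∉ Finset.univ.image Q.vx) : full Q (some i) = 0 := by
  unfold full QD.dm
  rw [Finset.card_eq_zero, Finset.filter_eq_empty_iff]
  intro o _ ho
  rcases o with _ | b
  · simp [QD.vo] at ho
  · simp only [QD.vo, Option.map_some, Option.some.injEq] at ho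
    exact hi (Finset.mem_image.2 ⟨b, Finset.mem_univ _, ho⟩)

/-- components of an equivariant dressing -/
noncomputable def comp (d : DV I) (F : Finset (Option B) → SS B Λ) : Finset (Option B) → SS B Λ :=
  open Classical in fun V => if Q.dm V = d then F V else 0

theorem comp_mem {F : Finset (Option B) → SS B Λ} (hF : F ∈ Q.Eqv) (d : DV I) :
    comp Q d F ∈ Q.EqvD d := by
  classical
  refine ⟨fun σ hσ V => ?_, fun V hV => ?_⟩
  · unfold comp
    rw [dm_vact Q hσ]
    split_ifs
    · exact hF σ hσ V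
    · simp
  · unfold comp at hV
    by_contra h
    rw [if_neg h] at hV
    exact hV rfl

theorem sum_comp (F : Finset (Option B) → SS B Λ) :
    ∃ s : Finset (DV I), (∀ d ∈ s, ∃ V, Q.dm V = d) ∧ F = ∑ d ∈ s, comp Q d F := by
  classical
  refine ⟨Finset.univ.image Q.dm, ?_, ?_⟩
  · intro d hd
    obtain ⟨V, -, hV⟩ := Finset.mem_image.1 hd
    exact ⟨V, hV⟩
  · funext V
    rw [Finset.sum_apply]
    unfold comp
    rw [Finset.sum_ite_eq, if_pos (Finset.mem_image_of_mem _ (Finset.mem_univ _))]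

/-- all products of generators -/
noncomputable def TA : Submodule Λ (AA B Λ) :=
  ⨆ D : {D : Multiset (DV I) // ∀ a ∈ D, a ≤ full Q}, SP (PD Q) D.1

/-- products with a nontrivial generator -/
noncomputable def TI : Submodule Λ (AA B Λ) :=
  ⨆ D : {D : Multiset (DV I) // (∀ a ∈ D, a ≤ full Q) ∧ ∃ a ∈ D, Nt (full Q) a}, SP (PD Q) D.1

theorem SP_le_TA {D : Multiset (DV I)} (hD : ∀ a ∈ D, a ≤ full Q) : SP (PD Q) D ≤ TA Q :=
  le_iSup (fun D : {D : Multiset (DV I) // ∀ a ∈ D, a ≤ full Q} => SP (PD Q) D.1) ⟨D, hD⟩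

theorem SP_le_TI {D : Multiset (DV I)} (hD : ∀ a ∈ D, a ≤ full Q) (h : ∃ a ∈ D, Nt (full Q) a) :
    SP (PD Q) D ≤ TI Q :=
  le_iSup (fun D : {D : Multiset (DV I) // (∀ a ∈ D, a ≤ full Q) ∧ ∃ a ∈ D, Nt (full Q) a} =>
    SP (PD Q) D.1) ⟨D, hD, h⟩

theorem TA_mul_TA : TA Q * TA Q ≤ TA Q := by
  rw [TA, Submodule.iSup_mul]
  refine iSup_le fun D => ?_
  rw [Submodule.mul_iSup]
  refine iSup_le fun D' => ?_
  rw [← SP_add]
  refine SP_le_TA Q fun a ha => ?_
  rcases Multiset.mem_add.1 ha with h | h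
  · exact D.2 a h
  · exact D'.2 a h

theorem TA_mul_TI : TA Q * TI Q ≤ TI Q := by
  rw [TA, TI, Submodule.iSup_mul]
  refine iSup_le fun D => ?_
  rw [Submodule.mul_iSup]
  refine iSup_le fun D' => ?_
  rw [← SP_add]
  obtain ⟨b, hb, hb'⟩ := D'.2.2
  refine SP_le_TI Q (fun a ha => ?_) ⟨b, Multiset.mem_add.2 (Or.inr hb), hb'⟩
  rcases Multiset.mem_add.1 ha with h | h
  · exact D.2 a h
  · exact D'.2.1 a h

theorem one_mem_TA : (1 : AA B Λ) ∈ TA Q := by
  have : (1 : AA B Λ) ∈ SP (PD Q) (0 : Multiset (DV I)) := by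
    unfold SP
    rw [Multiset.map_zero, Multiset.prod_zero]
    exact Submodule.one_le.1 le_rfl
  exact SP_le_TA Q (by simp) this

theorem M_mem_TA {F : Finset (Option B) → SS B Λ} (hF : F ∈ Q.Eqv) : Q.M F ∈ TA Q := by
  obtain ⟨s, hs, hF'⟩ := sum_comp Q F
  rw [hF', ← ML_apply, map_sum]
  refine Submodule.sum_mem _ fun d hd => ?_
  obtain ⟨V, rfl⟩ := hs d hd
  have : SP (PD Q) {Q.dm V} ≤ TA Q := SP_le_TA Q (by
    intro a ha
    rw [Multiset.mem_singleton.1 ha]
    exact dm_le_full Q V)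
  apply this
  simp only [SP, Multiset.map_singleton, Multiset.prod_singleton]
  exact M_mem_PD Q (comp_mem Q hF _)

theorem M_mem_TI {F : Finset (Option B) → SS B Λ} (hF : F ∈ Q.Eqv) (h0 : F ∅ = 0)
    (h1 : F Finset.univ = 0) : Q.M F ∈ TI Q := by
  classical
  obtain ⟨s, hs, hF'⟩ := sum_comp Q F
  rw [hF', ← ML_apply, map_sum]
  refine Submodule.sum_mem _ fun d hd => ?_
  obtain ⟨V, rfl⟩ := hs d hd
  by_cases hV : Nt (full Q) (Q.dm V)
  · have : SP (PD Q) {Q.dm V} ≤ TI Q := SP_le_TI Q (by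
      intro a ha
      rw [Multiset.mem_singleton.1 ha]
      exact dm_le_full Q V) ⟨_, Multiset.mem_singleton_self _, hV⟩
    apply this
    simp only [SP, Multiset.map_singleton, Multiset.prod_singleton]
    exact M_mem_PD Q (comp_mem Q hF _)
  · have : comp Q (Q.dm V) F = 0 := by
      funext V'
      unfold comp
      split_ifs with h
      · rw [← h] at hV
        have : V' = ∅ ∨ V' = Finset.univ := by
          by_contra hcon
          rw [not_or] at hcon
          exact hV ⟨fun h' => hcon.1 (dm_eq_zero Q h'), fun h' => hcon.2 (dm_eq_full Q h'),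
            dm_le_full Q V'⟩
        rcases this with rfl | rfl
        · exact h0
        · exact h1
      · rfl
    rw [this, map_zero]
    exact zero_mem _

theorem A_le_TA {z : AA B Λ} (hz : z ∈ Q.A) : z ∈ TA Q := by
  unfold QD.A at hz
  induction hz using Algebra.adjoin_induction with
  | mem x hx =>
    obtain ⟨F, hF, rfl⟩ := hx
    exact M_mem_TA Q hF
  | algebraMap r =>
    rw [Algebra.algebraMap_eq_smul_one]
    exact Submodule.smul_mem _ _ (one_mem_TA Q)
  | add x y _ _ hx hy => exact add_mem hx hy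
  | mul x y _ _ hx hy => exact TA_mul_TA Q (Submodule.mul_mem_mul hx hy)

theorem II_le_TI {z : AA B Λ} (hz : z ∈ Q.II) : z ∈ TI Q := by
  unfold QD.II at hz
  induction hz using Submodule.span_induction with
  | mem x hx =>
    obtain ⟨F, hF, h0, h1, rfl⟩ := hx
    exact M_mem_TI Q hF h0 h1
  | zero => exact zero_mem _
  | add x y _ _ hx hy => exact add_mem hx hy
  | smul a x _ hx =>
    have : a • x = (a : AA B Λ) * x := rfl
    rw [this]
    exact TA_mul_TI Q (Submodule.mul_mem_mul (A_le_TA Q a.2) hx)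

end Vale.Agent.P291.H906
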