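import Vale.Agent.P291.H906.Norm
import Vale.Agent.P291.I2Blk
import Vale.Agent.P291.I1Blk

/-!
# P291 / H906 / Kernel: the kernel lemma (section 4 of note 4311)
-/

open MvPolynomial

set_option linter.unusedSectionVars false

namespace Vale.Agent.P291.H906

variable {I E B Λ : Type*} [Fintype E] [DecidableEq I] [Fintype B] [DecidableEq B] [CommRing Λ]
  [IsDomain Λ] [VS I]
variable (Q : QD I E B Λ)

/-- products that are lower than `E'` in every context -/
noncomputable def KT (E' : Multiset (DV I)) : Submodule Λ (AA B Λ) :=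
  ⨆ D : {D : Multiset (DV I) // Low (full Q) D E' ∧ (∀ a ∈ D, a ≤ full Q) ∧
    Multiset.card D = Multiset.card E' ∧
    (Multiset.card E' ≤ 2 ∨ ∃ a ∈ D, Nt (full Q) a)}, SP (PD Q) D.1

theorem SP_le_KT {D E' : Multiset (DV I)} (h1 : Low (full Q) D E') (h2 : ∀ a ∈ D, a ≤ full Q)
    (h4 : Multiset.card D = Multiset.card E')
    (h3 : Multiset.card E' ≤ 2 ∨ ∃ a ∈ D, Nt (full Q) a) : SP (PD Q) D ≤ KT Q E' :=
  le_iSup (fun D : {D : Multiset (DV I) // Low (full Q) D E' ∧ (∀ a ∈ D, a ≤ full Q) ∧
    Multiset.card D = Multiset.card E' ∧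
    (Multiset.card E' ≤ 2 ∨ ∃ a ∈ D, Nt (full Q) a)} => SP (PD Q) D.1) ⟨D, h1, h2, h4, h3⟩

theorem prod_mem_SP {k : ℕ} (d : Fin k → DV I) (F : Fin k → Finset (Option B) → SS B Λ)
    (hF : ∀ j, F j ∈ Q.EqvD (d j)) : ∏ j, Q.M (F j) ∈ SP (PD Q) (ms d) := by
  induction k with
  | zero =>
    simp only [Finset.univ_eq_empty, Finset.prod_empty]
    unfold SP ms
    simp only [List.ofFn_zero, Multiset.coe_nil, Multiset.map_zero, Multiset.prod_zero]
    exact Submodule.one_le.1 le_rfl
  | succ k ih =>
    rw [Fin.prod_univ_succ, ms_succ, SP_cons]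
    exact Submodule.mul_mem_mul (M_mem_PD Q (hF 0)) (ih (fun j => d j.succ) _ fun j => hF j.succ)

theorem mul_mem_EqvD {d : DV I} {F G : Finset (Option B) → SS B Λ} (hF : F ∈ Q.EqvD d)
    (hG : G ∈ Q.EqvD d) : F * G ∈ Q.EqvD d := by
  refine ⟨mul_mem hF.1 hG.1, fun V hV => hG.2 V fun h => hV ?_⟩
  rw [Pi.mul_apply, h, mul_zero]

theorem pair_low [Algebra ℚ Λ] (hQ : Q.NonzeroLoops) {x y : DV I} (hxy : x ≤ y)
    {F G : Finset (Option B) → SS B Λ} (hF : F ∈ Q.EqvD x) (hG : G ∈ Q.EqvD y)
    {n : ℕ} (m : Fin n → Finset (Option B) → SS B Λ) (c : Fin n → Finset (Option B) → SS B Λ)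
    (hm : ∀ i, m i ∈ Q.EqvD x) (hc : ∀ i, c i ∈ Q.EqvD y)
    (h : ∀ V V', V ⊆ V' → Q.dm V = x → Q.dm V' = y → F V = ∑ i, m i V * c i V') :
    Q.M F * Q.M G - ∑ i, Q.M (m i) * Q.M (c i * G) ∈
      ⨆ a : {a : DV I // a ≤ x ∧ a ≠ x}, PD Q (y + x - a.1) * PD Q a.1 := by
  have hpure : ∀ (F₀ F₁ : Finset (Option B) → SS B Λ),
      Q.MT 2 (fun V => F₀ (V 0) * F₁ (V 1)) = Q.M F₀ * Q.M F₁ := by
    intro F₀ F₁
    have := MT_pure Q 2 1 ![F₀, F₁]
    simp only [Fin.prod_univ_two, Matrix.cons_val_zero, Matrix.cons_val_one, one_mul,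
      cst_one] at this
    exact this
  have hdec : ∀ (F₀ F₁ : Finset (Option B) → SS B Λ), F₀ ∈ Q.Eqv → F₁ ∈ Q.Eqv →
      (fun V => F₀ (V 0) * F₁ (V 1)) ∈ Q.Dec 2 := by
    intro F₀ F₁ h0 h1
    refine Submodule.subset_span ⟨1, one_mem _, ![F₀, F₁], ?_, ?_⟩
    · intro j
      fin_cases j
      · exact h0
      · exact h1
    · funext V
      simp [Fin.prod_univ_two]
  let τ : (Fin 2 → Finset (Option B)) → SS B Λ :=
    (fun V => G (V 0) * F (V 1)) - ∑ i, fun V => (c i * G) (V 0) * m i (V 1)
  have hτ : τ ∈ Q.Dec 2 := by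
    refine sub_mem (hdec _ _ hG.1 hF.1) (sum_mem fun i _ => ?_)
    exact hdec _ _ (mul_mem (hc i).1 hG.1) (hm i).1
  have hτV : ∀ V, τ V = G (V 0) * F (V 1) - ∑ i, (c i * G) (V 0) * m i (V 1) := by
    intro V
    simp only [τ, Pi.sub_apply, Finset.sum_apply]
  have hs : ∀ V, τ V ≠ 0 → Q.dm (V 0) = y ∧ Q.dm (V 1) = x := by
    intro V hV
    rw [hτV] at hV
    by_contra hcon
    apply hV
    rw [not_and_or] at hcon
    rcases hcon with h' | h'
    · have hG0 : G (V 0) = 0 := by
        by_contra h2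
        exact h' (hG.2 _ h2)
      simp [hG0]
    · have hF0 : F (V 1) = 0 := by
        by_contra h2
        exact h' (hF.2 _ h2)
      have hm0 : ∀ i, m i (V 1) = 0 := by
        intro i
        by_contra h2
        exact h' ((hm i).2 _ h2)
      simp [hF0, hm0]
  have h0 : ∀ V, V 1 ⊆ V 0 → τ V = 0 := by
    intro V hV
    by_contra hne
    obtain ⟨h1, h2⟩ := hs V hne
    apply hne
    rw [hτV, h _ _ hV h2 h1, Finset.mul_sum, ← Finset.sum_sub_distrib]
    refine Finset.sum_eq_zero fun i _ => ?_
    rw [Pi.mul_apply]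
    ring
  have key := pair_kernel Q hQ y x hxy hτ hs h0
  have hMT : Q.MT 2 τ = Q.M F * Q.M G - ∑ i, Q.M (m i) * Q.M (c i * G) := by
    rw [← TB.MTl_apply, map_sub, map_sum, TB.MTl_apply, hpure, mul_comm (Q.M G)]
    congr 1
    refine Finset.sum_congr rfl fun i _ => ?_
    rw [TB.MTl_apply, hpure, mul_comm]
  rw [hMT] at key
  simpa only [PP_eq] using key

theorem kernel_lemma [Algebra ℚ Λ] (hQ : Q.NonzeroLoops)
    (hfs : ∀ i, i ∉ (VS.s : Finset I) → full Q (some i) = 0) (k : ℕ) :
    ∀ (d : Fin (k + 1) → DV I), Monotone d → (∀ j, Nt (full Q) (d j)) →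
    ∀ (ι : Type) (s : Finset ι) (F : ι → Fin (k + 1) → (Finset (Option B) → SS B Λ)),
    (∀ l ∈ s, ∀ j, F l j ∈ Q.EqvD (d j)) →
    (∀ V : Fin (k + 1) → Finset (Option B), Monotone V → (∀ j, Q.dm (V j) = d j) →
      ∑ l ∈ s, ∏ j, F l j (V j) = 0) →
    ∑ l ∈ s, ∏ j, Q.M (F l j) ∈ KT Q (ms d) := by
  induction k with
  | zero =>
    intro d _ _ ι s F hF h0
    have : ∑ l ∈ s, ∏ j, Q.M (F l j) = ML Q (∑ l ∈ s, F l 0) := by
      rw [map_sum]
      refine Finset.sum_congr rfl fun l _ => ?_
      rw [Fin.prod_univ_one]; rfl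
    rw [this]
    have h0' : ∑ l ∈ s, F l 0 = 0 := by
      funext V
      rw [Finset.sum_apply]
      by_cases hV : Q.dm V = d 0
      · have := h0 (fun _ => V) monotone_const (fun j => by rw [hV]; congr 1; exact (Subsingleton.elim (α := Fin 1) 0 j))
        simpa [Fin.prod_univ_one] using this
      · refine Finset.sum_eq_zero fun l hl => ?_
        by_contra h
        exact hV ((hF l hl 0).2 V h)
    rw [h0', map_zero]
    exact zero_mem _
  | succ k ih =>
    intro d hd hnt ι s F hF h0
    obtain ⟨n, m, c, hm, hc, hrep, hker⟩ := rel_kernel Q (d 1) (d 0) (hd (Fin.zero_le _))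
    set rest : ι → AA B Λ := fun l => ∏ j : Fin k, Q.M (F l j.succ.succ) with hrest
    have hsplit : ∀ l, ∏ j, Q.M (F l j) = Q.M (F l 0) * Q.M (F l 1) * rest l := by
      intro l
      rw [Fin.prod_univ_succ, Fin.prod_univ_succ, ← mul_assoc]
      rfl
    have hdec : ∑ l ∈ s, ∏ j, Q.M (F l j) =
        ∑ l ∈ s, (Q.M (F l 0) * Q.M (F l 1) - ∑ i, Q.M (m i) * Q.M (c i (F l 0) * F l 1)) * rest l
        + ∑ i, Q.M (m i) * ∑ l ∈ s, Q.M (c i (F l 0) * F l 1) * rest l := by
      have e1 : ∑ i, Q.M (m i) * ∑ l ∈ s, Q.M (c i (F l 0) * F l 1) * rest l =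
          ∑ l ∈ s, (∑ i, Q.M (m i) * Q.M (c i (F l 0) * F l 1)) * rest l := by
        simp_rw [Finset.mul_sum, Finset.sum_mul]
        rw [Finset.sum_comm]
        refine Finset.sum_congr rfl fun l _ => Finset.sum_congr rfl fun i _ => ?_
        ring
      rw [e1, ← Finset.sum_add_distrib]
      refine Finset.sum_congr rfl fun l _ => ?_
      rw [hsplit]; ring
    rw [hdec]
    refine add_mem (sum_mem fun l hl => ?_) (sum_mem fun i _ => ?_)
    · -- the pair part
      have h1 := pair_low Q hQ (hd (Fin.zero_le 1)) (hF l hl 0) (hF l hl 1) m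
        (fun i => c i (F l 0)) hm (fun i => hc i _ (hF l hl 0))
        (fun V V' hV h1 h2 => hrep _ (hF l hl 0) V V' hV h1 h2)
      have h2 : rest l ∈ SP (PD Q) (ms fun j : Fin k => d j.succ.succ) :=
        prod_mem_SP Q _ _ fun j => hF l hl j.succ.succ
      have h3 := Submodule.mul_mem_mul h1 h2
      rw [Submodule.iSup_mul] at h3
      refine (iSup_le fun a => ?_ : _ ≤ KT Q (ms d)) h3
      by_cases hfull : d 1 + d 0 - a.1 ≤ full Q
      swap
      · rw [PD_bot Q hfull, Submodule.bot_mul, Submodule.bot_mul]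
        exact bot_le
      rw [← SP_pair, ← SP_add]
      have hms : ms d = {d 0, d 1} + ms fun j : Fin k => d j.succ.succ := by
        rw [ms_succ, ms_succ]
        simp only [Multiset.insert_eq_cons, Fin.succ_zero_eq_one, Multiset.cons_add,
          Multiset.singleton_add]
      have ha : a.1 ≤ d 0 := a.2.1
      have ha1 : a.1 ≤ d 1 := ha.trans (hd (Fin.zero_le _))
      have hs' : a.1 + (d 1 + d 0 - a.1) = d 0 + d 1 := by
        funext o
        simp only [Pi.add_apply, Pi.sub_apply]
        have h3 : a.1 o ≤ d 0 o := ha o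
        omega
      refine SP_le_KT Q ?_ ?_ ?_ ?_
      · rw [hms, add_comm _ (ms _), add_comm _ (ms _), Multiset.pair_comm (d 1 + d 0 - a.1)]
        refine Low.add_left ?_ _
        refine exchange_lt hs' ha ha1
          (exists_lt_of_ne (full_none Q) hfs (hnt 0).2.2 hs' ha ha1 hfull ?_)
        rw [inf_eq_left.2 (hd (Fin.zero_le 1))]
        exact a.2.2
      · intro b hb
        rcases Multiset.mem_add.1 hb with hb | hb
        · simp only [Multiset.insert_eq_cons, Multiset.mem_cons, Multiset.mem_singleton] at hb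
          rcases hb with rfl | rfl
          · exact hfull
          · exact ha.trans (hnt 0).2.2
        · obtain ⟨j, rfl⟩ := (mem_ms _).1 hb
          exact (hnt _).2.2
      · rw [hms, card_pair, card_pair]
      · rw [card_ms]
        rcases k with _ | k
        · left; norm_num
        · right
          exact ⟨d 2, Multiset.mem_add.2 (Or.inr ((mem_ms _).2 ⟨0, rfl⟩)), hnt _⟩
    · -- the rest
      have h1 := ih (fun j => d j.succ) (fun a b hab => hd (Fin.succ_le_succ_iff.2 hab))
        (fun j => hnt _) ι s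
        (fun l => Fin.cons (c i (F l 0) * F l 1) fun j : Fin k => F l j.succ.succ) (by
          intro l hl j
          refine Fin.cases ?_ (fun j => ?_) j
          · exact mul_mem_EqvD Q (hc i _ (hF l hl 0)) (hF l hl 1)
          · exact hF l hl j.succ.succ) (by
          intro V hV hVd
          simp only [Fin.prod_univ_succ, Fin.cons_zero, Fin.cons_succ, Pi.mul_apply]
          have := hker ι s (fun l => F l 0)
            (fun l => F l 1 (V 0) * ∏ j : Fin k, F l j.succ.succ (V j.succ)) (V 0)
            (fun l hl => hF l hl 0) (hVd 0) (by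
              intro V' hV' hVd'
              have h2 := h0 (Fin.cons V' V) (by
                intro a b
                refine Fin.cases ?_ (fun a => ?_) a
                · refine Fin.cases ?_ (fun b => ?_) b
                  · intro _; exact le_rfl
                  · intro _
                    simp only [Fin.cons_zero, Fin.cons_succ]
                    exact hV'.trans (hV (Fin.zero_le _))
                · refine Fin.cases ?_ (fun b => ?_) b
                  · intro h; exact absurd h (by simp)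
                  · intro h
                    simp only [Fin.cons_succ]
                    exact hV (Fin.succ_le_succ_iff.1 h)) (by
                intro j
                refine Fin.cases ?_ (fun j => ?_) j
                · simpa using hVd'
                · simpa using hVd j)
              rw [← h2]
              refine Finset.sum_congr rfl fun l _ => ?_
              rw [Fin.prod_univ_succ, Fin.prod_univ_succ]
              simp only [Fin.cons_zero, Fin.cons_succ]
              have e1 : (Fin.succ (0 : Fin (k + 1))) = 1 := rfl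
              rw [e1]
              ring) i
          rw [← this]
          refine Finset.sum_congr rfl fun l _ => ?_
          ring)
      have h2 : ∑ l ∈ s, Q.M (c i (F l 0) * F l 1) * rest l ∈ KT Q (ms fun j => d j.succ) := by
        simpa only [Fin.prod_univ_succ, Fin.cons_zero, Fin.cons_succ] using h1
      have h3 := Submodule.mul_mem_mul (M_mem_PD Q (hm i)) h2
      unfold KT at h3
      rw [Submodule.mul_iSup] at h3
      refine (iSup_le fun D => ?_ : _ ≤ KT Q (ms d)) h3
      obtain ⟨D, hD1, hD2, hD4, hD3⟩ := D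
      rw [← SP_cons]
      refine SP_le_KT Q ?_ ?_ ?_ ?_
      · show Low (full Q) (d 0 ::ₘ D) (ms d)
        rw [ms_succ, ← Multiset.singleton_add, ← Multiset.singleton_add]
        exact Low.add_left hD1 _
      · intro b hb
        rcases Multiset.mem_cons.1 hb with rfl | hb
        · exact (hnt 0).2.2
        · exact hD2 b hb
      · show Multiset.card (d 0 ::ₘ D) = Multiset.card (ms d)
        rw [Multiset.card_cons, hD4, card_ms, card_ms]
      · right
        exact ⟨d 0, Multiset.mem_cons_self _ _, hnt 0⟩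

end Vale.Agent.P291.H906
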