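import Vale.Agent.P291.H906.Gen
import Vale.Agent.P291.NBlk

/-!
# P291 / H906 / Norm: norms of tuples and uniqueness of chains
-/

open MvPolynomial

set_option linter.unusedSectionVars false

namespace Vale.Agent.P291.H906

/-- multiset of the values of a tuple -/
def ms {I : Type*} {k : ℕ} (d : Fin k → DV I) : Multiset (DV I) := ↑(List.ofFn d)

theorem ms_succ {I : Type*} {k : ℕ} (d : Fin (k + 1) → DV I) :
    ms d = d 0 ::ₘ ms (fun j => d j.succ) := by
  simp [ms, List.ofFn_succ]

theorem mem_ms {I : Type*} {k : ℕ} (d : Fin k → DV I) {a : DV I} : a ∈ ms d ↔ ∃ j, d j = a := by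
  simp [ms, List.mem_ofFn]

theorem card_ms {I : Type*} {k : ℕ} (d : Fin k → DV I) : Multiset.card (ms d) = k := by
  simp [ms]

theorem sum_ms {I : Type*} {k : ℕ} (d : Fin k → DV I) (g : DV I → ℤ) :
    ((ms d).map g).sum = ∑ j, g (d j) := by
  simp [ms, List.map_ofFn, List.sum_ofFn]

section pos

variable {I : Type*} [VS I]

theorem Phi_pos {full : DV I} (hf : full none = 1)
    (hfs : ∀ i, i ∉ (VS.s : Finset I) → full (some i) = 0) {C : Multiset (DV I)}
    (hC : IsCh full C) : 0 < Phi full C := by
  classical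
  obtain ⟨hC0, hnt, hch⟩ := hC
  set P := C.filter (fun a => a none = 0) with hP
  set T := C.filter (fun a => ¬ a none = 0) with hT
  have hPT : C = P + T := (Multiset.filter_add_not _ C).symm
  have hPm : ∀ a ∈ P, a ∈ C ∧ a none = 0 := fun a ha => Multiset.mem_filter.1 ha
  have hTm : ∀ a ∈ T, a ∈ C ∧ a none = 1 := fun a ha => by
    obtain ⟨h1, h2⟩ := Multiset.mem_filter.1 ha
    have h3 : a none ≤ full none := (hnt a h1).2.2 none
    exact ⟨h1, by omega⟩
  have hqP : qq P = 0 := by
    unfold qq
    apply Multiset.sum_eq_zero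
    intro z hz
    obtain ⟨a, ha, rfl⟩ := Multiset.mem_map.1 hz
    rw [(hPm a ha).2]; rfl
  have hmPT : mm P T = qq T * ss P := by
    unfold mm qq ss
    rw [mul_comm, ← Multiset.sum_map_mul_right]
    congr 1
    refine Multiset.map_congr rfl fun a ha => ?_
    rw [← Multiset.sum_map_mul_left]
    congr 1
    refine Multiset.map_congr rfl fun b hb => ?_
    rw [(hTm b hb).2]
    have hab : a ≤ b := by
      rcases hch a (hPm a ha).1 b (hTm b hb).1 with h | h
      · exact h
      · have h1 : b none ≤ a none := h none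
        rw [(hTm b hb).2, (hPm a ha).2] at h1
        omega
    unfold mi tot
    push_cast
    rw [mul_one]
    refine Finset.sum_congr rfl fun i _ => ?_
    have := hab (some i)
    exact_mod_cast min_eq_left this
  have hqT : qq T = Multiset.card T := by
    unfold qq
    have : T.map (fun a => ((a none : ℕ) : ℤ)) = T.map (fun _ => (1 : ℤ)) :=
      Multiset.map_congr rfl fun a ha => by rw [(hTm a ha).2]; rfl
    rw [this]
    simp
  have hG : ∀ b ∈ T, ∀ b' ∈ T, 0 ≤ mi b b' - tot b - tot b' + tot full := by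
    intro b hb b' hb'
    unfold mi tot
    push_cast
    rw [← Finset.sum_sub_distrib, ← Finset.sum_sub_distrib, ← Finset.sum_add_distrib]
    refine Finset.sum_nonneg fun i _ => ?_
    have h1 : b (some i) ≤ full (some i) := (hnt b (hTm b hb).1).2.2 (some i)
    have h2 : b' (some i) ≤ full (some i) := (hnt b' (hTm b' hb').1).2.2 (some i)
    omega
  have hGs : mm T T - 2 * qq T * ss T + (qq T) ^ 2 * tot full =
      (T.map fun b => (T.map fun b' => mi b b' - tot b - tot b' + tot full).sum).sum := by
    simp only [Multiset.sum_map_add, Multiset.sum_map_sub, Multiset.map_const', Multiset.sum_replicate]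
    rw [hqT]
    unfold mm ss
    simp only [nsmul_eq_mul, Multiset.sum_map_mul_left]
    ring
  have hGnn : 0 ≤ mm T T - 2 * qq T * ss T + (qq T) ^ 2 * tot full := by
    rw [hGs]
    refine Multiset.sum_nonneg fun z hz => ?_
    obtain ⟨b, hb, rfl⟩ := Multiset.mem_map.1 hz
    refine Multiset.sum_nonneg fun z hz => ?_
    obtain ⟨b', hb', rfl⟩ := Multiset.mem_map.1 hz
    exact hG b hb b' hb'
  have hPhi : Phi full C = mm P P + (mm T T - 2 * qq T * ss T + (qq T) ^ 2 * tot full) := by
    rw [hPT]
    unfold Phi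
    rw [mm_add_left, mm_add_right, mm_add_right, mm_comm T P, qq_add, ss_add, hqP, hmPT]
    ring
  rw [hPhi]
  obtain ⟨c, hc⟩ := Multiset.exists_mem_of_ne_zero hC0
  have hmono : ∀ a b : DV I, a ≤ b → b ≤ full → a ≠ b → a none = b none → tot a < tot b := by
    intro a b hab hbf hne hn
    refine tot_strict hab ?_
    by_contra hcon
    push Not at hcon
    apply hne
    funext o
    rcases o with _ | i
    · exact hn
    · by_cases hi : i ∈ (VS.s : Finset I)
      · exact le_antisymm (hab (some i)) (hcon i hi)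
      · have h1 := hfs i hi
        have h2 : b (some i) ≤ full (some i) := hbf (some i)
        have h3 : a (some i) ≤ b (some i) := hab (some i)
        omega
  by_cases hcn : c none = 0
  · have hcP : c ∈ P := Multiset.mem_filter.2 ⟨hc, hcn⟩
    have h1 : (0 : ℤ) < mi c c := by
      rw [mi_self]
      have := hmono 0 c (fun o => Nat.zero_le _) (hnt c hc).2.2 (hnt c hc).1.symm (by rw [hcn]; rfl)
      have h0 : tot (0 : DV I) = 0 := by simp [tot]
      omega
    have h2 : mi c c ≤ (P.map fun b => mi c b).sum :=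
      Multiset.single_le_sum (fun z hz => by
        obtain ⟨b, -, rfl⟩ := Multiset.mem_map.1 hz
        exact mi_nonneg c b) _ (Multiset.mem_map_of_mem _ hcP)
    have h3 : (P.map fun b => mi c b).sum ≤ mm P P :=
      Multiset.single_le_sum (fun z hz => by
        obtain ⟨b, -, rfl⟩ := Multiset.mem_map.1 hz
        refine Multiset.sum_nonneg fun z hz => ?_
        obtain ⟨b', -, rfl⟩ := Multiset.mem_map.1 hz
        exact mi_nonneg _ _) _ (Multiset.mem_map_of_mem (fun a => (P.map fun b => mi a b).sum) hcP)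
    linarith
  · have hcT : c ∈ T := Multiset.mem_filter.2 ⟨hc, hcn⟩
    have h1 : (0 : ℤ) < mi c c - tot c - tot c + tot full := by
      rw [mi_self]
      have := hmono c full (hnt c hc).2.2 le_rfl (hnt c hc).2.1 (by rw [(hTm c hcT).2, hf])
      omega
    have h2 : mi c c - tot c - tot c + tot full ≤
        (T.map fun b' => mi c b' - tot c - tot b' + tot full).sum :=
      Multiset.single_le_sum (fun z hz => by
        obtain ⟨b, hb, rfl⟩ := Multiset.mem_map.1 hz
        exact hG c hcT b hb) _ (Multiset.mem_map_of_mem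
          (fun b' => mi c b' - tot c - tot b' + tot full) hcT)
    have h3 : (T.map fun b' => mi c b' - tot c - tot b' + tot full).sum ≤
        (T.map fun b => (T.map fun b' => mi b b' - tot b - tot b' + tot full).sum).sum :=
      Multiset.single_le_sum (fun z hz => by
        obtain ⟨b, hb, rfl⟩ := Multiset.mem_map.1 hz
        refine Multiset.sum_nonneg fun z hz => ?_
        obtain ⟨b', hb', rfl⟩ := Multiset.mem_map.1 hz
        exact hG b hb b' hb') _ (Multiset.mem_map_of_mem
          (fun b => (T.map fun b' => mi b b' - tot b - tot b' + tot full).sum) hcT)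
    rw [hGs]
    have := mm_nonneg P P
    linarith

theorem exists_min {C : Multiset (DV I)} (hC : C ≠ 0)
    (h : ∀ a ∈ C, ∀ b ∈ C, a ≤ b ∨ b ≤ a) : ∃ m ∈ C, ∀ b ∈ C, m ≤ b := by
  induction C using Multiset.induction with
  | empty => exact absurd rfl hC
  | cons a C ih =>
    by_cases hC0 : C = 0
    · subst hC0
      refine ⟨a, Multiset.mem_cons_self _ _, fun b hb => ?_⟩
      rcases Multiset.mem_cons.1 hb with rfl | hb
      · exact le_rfl
      · exact absurd hb (Multiset.notMem_zero b)
    · obtain ⟨m, hm, hmin⟩ := ih hC0 fun a ha b hb =>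
        h a (Multiset.mem_cons_of_mem ha) b (Multiset.mem_cons_of_mem hb)
      rcases h a (Multiset.mem_cons_self _ _) m (Multiset.mem_cons_of_mem hm) with h1 | h1
      · refine ⟨a, Multiset.mem_cons_self _ _, fun b hb => ?_⟩
        rcases Multiset.mem_cons.1 hb with rfl | hb
        · exact le_rfl
        · exact h1.trans (hmin b hb)
      · refine ⟨m, Multiset.mem_cons_of_mem hm, fun b hb => ?_⟩
        rcases Multiset.mem_cons.1 hb with rfl | hb
        · exact h1
        · exact hmin b hb

/-- chains can be sorted -/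
theorem exists_ms (n : ℕ) : ∀ C : Multiset (DV I), Multiset.card C = n + 1 →
    (∀ a ∈ C, ∀ b ∈ C, a ≤ b ∨ b ≤ a) → ∃ d : Fin (n + 1) → DV I, Monotone d ∧ ms d = C := by
  induction n with
  | zero =>
    intro C hC _
    obtain ⟨a, rfl⟩ := Multiset.card_eq_one.1 hC
    refine ⟨fun _ => a, monotone_const, ?_⟩
    simp [ms]
  | succ n ih =>
    intro C hC h
    have hC0 : C ≠ 0 := by
      rintro rfl
      simp at hC
    obtain ⟨m, hm, hmin⟩ := exists_min hC0 h
    obtain ⟨C', rfl⟩ := Multiset.exists_cons_of_mem hm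
    obtain ⟨d, hd, rfl⟩ := ih C' (by rw [Multiset.card_cons] at hC; omega) fun a ha b hb =>
      h a (Multiset.mem_cons_of_mem ha) b (Multiset.mem_cons_of_mem hb)
    refine ⟨Fin.cons m d, ?_, ?_⟩
    · intro a b
      refine Fin.cases ?_ (fun a => ?_) a
      · refine Fin.cases ?_ (fun b => ?_) b
        · intro _; exact le_rfl
        · intro _
          simp only [Fin.cons_zero, Fin.cons_succ]
          exact hmin _ (Multiset.mem_cons_of_mem ((mem_ms d).2 ⟨b, rfl⟩))
      · refine Fin.cases ?_ (fun b => ?_) b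
        · intro h; exact absurd h (by simp)
        · intro h
          simp only [Fin.cons_succ]
          exact hd (Fin.succ_le_succ_iff.1 h)
    · rw [ms_succ]
      simp only [Fin.cons_zero, Fin.cons_succ]

end pos

section chain

variable {B : Type*} [Fintype B] [DecidableEq B]

/-- number of members containing `o` -/
def cn {k : ℕ} (V : Fin k → Finset (Option B)) (o : Option B) : ℕ :=
  (Finset.univ.filter fun j => o ∈ V j).card

theorem ext_sum_lamV {k : ℕ} (V : Fin k → Finset (Option B)) (o : Option B) :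
    ext (∑ j, lamV (V j)) o = cn V o - cn V none := by
  have h : ∀ o, (cn V o : ℤ) = ∑ j, if o ∈ V j then (1 : ℤ) else 0 := by
    intro o
    unfold cn
    rw [Finset.card_filter]
    push_cast
    rfl
  rw [h, h, ← Finset.sum_sub_distrib]
  rcases o with _ | b
  · simp [ext]
  · simp only [ext, Option.elim_some, Finset.sum_apply]
    rfl

theorem mem_iff_cn {k : ℕ} {V : Fin k → Finset (Option B)} (hV : Monotone V) (o : Option B)
    (j : Fin k) : o ∈ V j ↔ k ≤ j + cn V o := by
  unfold cn
  constructor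
  · intro h
    have : Finset.Ici j ⊆ Finset.univ.filter fun i => o ∈ V i := by
      intro i hi
      rw [Finset.mem_filter]
      exact ⟨Finset.mem_univ _, hV (Finset.mem_Ici.1 hi) h⟩
    have h2 := Finset.card_le_card this
    rw [Fin.card_Ici] at h2
    omega
  · intro h
    by_contra hb
    have : (Finset.univ.filter fun i => o ∈ V i) ⊆ Finset.Ioi j := by
      intro i hi
      rw [Finset.mem_filter] at hi
      rw [Finset.mem_Ioi]
      by_contra hij
      exact hb (hV (not_lt.1 hij) hi.2)
    have h2 := Finset.card_le_card this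
    rw [Fin.card_Ioi] at h2
    have := j.2
    omega

theorem cn_le {k : ℕ} (V : Fin k → Finset (Option B)) (o : Option B) : cn V o ≤ k := by
  unfold cn
  refine (Finset.card_le_card (Finset.filter_subset _ _)).trans ?_
  simp

/-- a chain of proper nonempty subsets is determined by its cocharacter -/
theorem chain_unique {k k' : ℕ} {V : Fin (k + 1) → Finset (Option B)}
    {V' : Fin (k' + 1) → Finset (Option B)} (hV : Monotone V) (hV' : Monotone V')
    (h0 : ∀ j, V j ≠ ∅) (h1 : ∀ j, V j ≠ Finset.univ) (h0' : ∀ j, V' j ≠ ∅)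
    (h1' : ∀ j, V' j ≠ Finset.univ) (h : ∑ j, lamV (V j) = ∑ j, lamV (V' j)) :
    k = k' ∧ ∀ (j : Fin (k + 1)) (j' : Fin (k' + 1)), (j : ℕ) = j' → V j = V' j' := by
  have hc : ∀ o, (cn V o : ℤ) - cn V none = cn V' o - cn V' none := by
    intro o
    rw [← ext_sum_lamV, ← ext_sum_lamV, h]
  have hmin : ∀ {n : ℕ} {U : Fin (n + 1) → Finset (Option B)}, Monotone U →
      (∀ j, U j ≠ Finset.univ) → ∃ o, cn U o = 0 := by
    intro n U hU hU1
    have h2 := hU1 (Fin.last n)
    have : ∃ o, o ∉ U (Fin.last n) := by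
      by_contra hcon
      push Not at hcon
      exact h2 (Finset.eq_univ_iff_forall.2 hcon)
    obtain ⟨o, ho⟩ := this
    refine ⟨o, ?_⟩
    rw [mem_iff_cn hU] at ho
    simp only [Fin.val_last] at ho
    omega
  have hmax : ∀ {n : ℕ} {U : Fin (n + 1) → Finset (Option B)}, Monotone U →
      (∀ j, U j ≠ ∅) → ∃ o, cn U o = n + 1 := by
    intro n U hU hU1
    obtain ⟨o, ho⟩ := Finset.nonempty_iff_ne_empty.2 (hU1 0)
    refine ⟨o, ?_⟩
    rw [mem_iff_cn hU] at ho
    have := cn_le U o
    simp only [Fin.val_zero] at ho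
    omega
  obtain ⟨o1, ho1⟩ := hmin hV h1
  obtain ⟨o2, ho2⟩ := hmin hV' h1'
  have hcn : cn V none = cn V' none := by
    have a1 := hc o1
    have a2 := hc o2
    omega
  have hcc : ∀ o, cn V o = cn V' o := by
    intro o
    have := hc o
    omega
  obtain ⟨o3, ho3⟩ := hmax hV h0
  obtain ⟨o4, ho4⟩ := hmax hV' h0'
  have hk : k = k' := by
    have b1 := hcc o3
    have b2 := hcc o4
    have b3 := cn_le V' o3
    have b4 := cn_le V o4
    omega
  refine ⟨hk, fun j j' hj => ?_⟩
  ext o
  rw [mem_iff_cn hV, mem_iff_cn hV', hcc o]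
  omega

end chain

variable {I E B Λ : Type*} [Fintype E] [DecidableEq I] [Fintype B] [DecidableEq B] [CommRing Λ]
  [IsDomain Λ] [VS I]
variable (Q : QD I E B Λ)

theorem vx_mem (hfs : ∀ i, i ∉ (VS.s : Finset I) → full Q (some i) = 0) (b : B) :
    Q.vx b ∈ (VS.s : Finset I) := by
  by_contra h
  have h1 := hfs _ h
  unfold full QD.dm at h1
  rw [Finset.card_eq_zero, Finset.filter_eq_empty_iff] at h1
  exact h1 (Finset.mem_univ (some b)) rfl

theorem body_card (hfs : ∀ i, i ∉ (VS.s : Finset I) → full Q (some i) = 0)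
    (V : Finset (Option B)) : (NB.body V).card = tot (Q.dm V) := by
  unfold tot
  rw [Finset.card_eq_sum_card_fiberwise (f := Q.vx) (t := (VS.s : Finset I))
    (fun b _ => vx_mem Q hfs b)]
  refine Finset.sum_congr rfl fun i _ => ?_
  unfold QD.dm
  rw [← Finset.card_map Function.Embedding.some]
  congr 1
  ext o
  simp only [Finset.mem_map, Finset.mem_filter, NB.mem_body, Function.Embedding.some_apply]
  constructor
  · rintro ⟨b, ⟨h1, h2⟩, rfl⟩
    exact ⟨h1, by simp [QD.vo, h2]⟩
  · rintro ⟨h1, h2⟩
    rcases o with _ | b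
    · simp [QD.vo] at h2
    · refine ⟨b, ⟨h1, ?_⟩, rfl⟩
      simpa [QD.vo] using h2

theorem dm_none (V : Finset (Option B)) : Q.dm V none = if none ∈ V then 1 else 0 := by
  unfold QD.dm
  split_ifs with h
  · rw [Finset.card_eq_one]
    refine ⟨none, ?_⟩
    ext o
    rcases o with _ | b
    · simp [QD.vo, h]
    · simp [QD.vo]
  · rw [Finset.card_eq_zero, Finset.filter_eq_empty_iff]
    intro o ho ho'
    rcases o with _ | b
    · exact h ho
    · simp [QD.vo] at ho'

theorem mi_eq_of_le {a b : DV I} (h : a ≤ b) : mi a b = tot a := by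
  unfold mi tot
  push_cast
  refine Finset.sum_congr rfl fun i _ => ?_
  have := h (some i)
  exact_mod_cast min_eq_left this

/-- **Norm lemma** -/
theorem norm_tuple (hfs : ∀ i, i ∉ (VS.s : Finset I) → full Q (some i) = 0) {k : ℕ}
    (V : Fin k → Finset (Option B)) (hd : Monotone fun j => Q.dm (V j)) :
    nrm (∑ j, lamV (V j)) ≤ Phi (full Q) (ms fun j => Q.dm (V j)) ∧
    (nrm (∑ j, lamV (V j)) = Phi (full Q) (ms fun j => Q.dm (V j)) ↔ Monotone V) := by
  have hq : qq (ms fun j => Q.dm (V j)) = NB.qn V := by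
    unfold qq NB.qn
    rw [sum_ms]
    refine Finset.sum_congr rfl fun j _ => ?_
    rw [dm_none]
    split_ifs <;> rfl
  have hs : ss (ms fun j => Q.dm (V j)) = ∑ b, NB.cnt V b := by
    unfold ss
    rw [sum_ms, NB.sum_cnt]
    refine Finset.sum_congr rfl fun j _ => ?_
    rw [body_card Q hfs]
  have hfull : tot (full Q) = Fintype.card B := by
    unfold full
    rw [← body_card Q hfs]
    simp [NB.body]
  have hm : mm (ms fun j => Q.dm (V j)) (ms fun j => Q.dm (V j)) =
      ∑ j, ∑ l, mi (Q.dm (V j)) (Q.dm (V l)) := by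
    unfold mm
    rw [sum_ms]
    refine Finset.sum_congr rfl fun j _ => ?_
    rw [sum_ms]
  have hPhi : Phi (full Q) (ms fun j => Q.dm (V j)) - nrm (∑ j, lamV (V j)) =
      ∑ j, ∑ l, (mi (Q.dm (V j)) (Q.dm (V l)) - ((NB.body (V j) ∩ NB.body (V l)).card : ℤ)) := by
    unfold Phi
    rw [NB.nrm_eq, NB.sum_cnt_sq, hq, hs, hfull, hm]
    simp only [Finset.sum_sub_distrib]
    ring
  have key : ∀ j l, j ≤ l →
      ((NB.body (V j) ∩ NB.body (V l)).card : ℤ) ≤ mi (Q.dm (V j)) (Q.dm (V l)) := by
    intro j l hjl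
    rw [mi_eq_of_le (hd hjl), ← body_card Q hfs]
    exact_mod_cast Finset.card_le_card Finset.inter_subset_left
  have key' : ∀ j l,
      ((NB.body (V j) ∩ NB.body (V l)).card : ℤ) ≤ mi (Q.dm (V j)) (Q.dm (V l)) := by
    intro j l
    rcases le_total j l with h | h
    · exact key j l h
    · rw [Finset.inter_comm, mi_comm]
      exact key l j h
  have hnn : ∀ j l, 0 ≤ mi (Q.dm (V j)) (Q.dm (V l)) -
      ((NB.body (V j) ∩ NB.body (V l)).card : ℤ) := fun j l => sub_nonneg.2 (key' j l)
  have htot : 0 ≤ ∑ j, ∑ l, (mi (Q.dm (V j)) (Q.dm (V l)) -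
      ((NB.body (V j) ∩ NB.body (V l)).card : ℤ)) :=
    Finset.sum_nonneg fun j _ => Finset.sum_nonneg fun l _ => hnn j l
  refine ⟨by linarith, ?_, ?_⟩
  · intro heq j l hjl
    rw [heq, sub_self] at hPhi
    have h1 := (Finset.sum_eq_zero_iff_of_nonneg
      (fun j _ => Finset.sum_nonneg fun l _ => hnn j l)).1 hPhi.symm j (Finset.mem_univ _)
    have h2 := (Finset.sum_eq_zero_iff_of_nonneg (fun l _ => hnn j l)).1 h1 l (Finset.mem_univ _)
    rw [mi_eq_of_le (hd hjl), ← body_card Q hfs] at h2
    have h3 : NB.body (V j) ∩ NB.body (V l) = NB.body (V j) := by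
      apply Finset.eq_of_subset_of_card_le Finset.inter_subset_left
      have : ((NB.body (V j)).card : ℤ) = (NB.body (V j) ∩ NB.body (V l)).card := by linarith
      exact_mod_cast this.le
    have h4 : NB.body (V j) ⊆ NB.body (V l) := Finset.inter_eq_left.1 h3
    intro o ho
    rcases o with _ | b
    · have h5 : Q.dm (V j) none ≤ Q.dm (V l) none := hd hjl none
      rw [dm_none, dm_none, if_pos ho] at h5
      by_contra hcon
      rw [if_neg hcon] at h5
      omega
    · exact NB.mem_body.1 (h4 (NB.mem_body.2 ho))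
  · intro hV
    have hz : ∀ j l, mi (Q.dm (V j)) (Q.dm (V l)) -
        ((NB.body (V j) ∩ NB.body (V l)).card : ℤ) = 0 := by
      have hz' : ∀ j l, j ≤ l → mi (Q.dm (V j)) (Q.dm (V l)) -
        ((NB.body (V j) ∩ NB.body (V l)).card : ℤ) = 0 := by
        intro j l hjl
        have : NB.body (V j) ⊆ NB.body (V l) := fun b hb =>
          NB.mem_body.2 (hV hjl (NB.mem_body.1 hb))
        rw [mi_eq_of_le (hd hjl), Finset.inter_eq_left.2 this, ← body_card Q hfs, sub_self]
      intro j l
      rcases le_total j l with h | h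
      · exact hz' j l h
      · rw [Finset.inter_comm, mi_comm]
        exact hz' l j h
    rw [Finset.sum_eq_zero fun j _ => Finset.sum_eq_zero fun l _ => hz j l] at hPhi
    linarith

end Vale.Agent.P291.H906
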