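import Mathlib
import Vale.Agent.P291.H906.Dims

/-!
# P291 / H906 / Rewrite: abstract rewriting of products of generators (section 4 of note 4311)
-/

set_option linter.unusedSectionVars false

namespace Vale.Agent.P291.H906

open Finset

section bounds

variable {I : Type*} [VS I]

theorem tot_le_of_mem {full : DV I} {D : Multiset (DV I)} (hD : ∀ a ∈ D, a ≤ full) {a : DV I}
    (ha : a ∈ D) : tot a ≤ tot full := tot_mono (hD a ha)

theorem mi_nonneg (a b : DV I) : 0 ≤ mi a b := by
  unfold mi; exact Finset.sum_nonneg fun i _ => by positivity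

theorem mm_nonneg (D E : Multiset (DV I)) : 0 ≤ mm D E := by
  unfold mm
  refine Multiset.sum_nonneg fun z hz => ?_
  obtain ⟨a, -, rfl⟩ := Multiset.mem_map.1 hz
  refine Multiset.sum_nonneg fun z hz => ?_
  obtain ⟨b, -, rfl⟩ := Multiset.mem_map.1 hz
  exact mi_nonneg a b

theorem ss_nonneg (D : Multiset (DV I)) : 0 ≤ ss D := by
  unfold ss
  refine Multiset.sum_nonneg fun z hz => ?_
  obtain ⟨a, -, rfl⟩ := Multiset.mem_map.1 hz
  positivity

omit [VS I] in
theorem qq_nonneg (D : Multiset (DV I)) : 0 ≤ qq D := by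
  unfold qq
  refine Multiset.sum_nonneg fun z hz => ?_
  obtain ⟨a, -, rfl⟩ := Multiset.mem_map.1 hz
  positivity

omit [VS I] in
theorem qq_le {full : DV I} (hf : full none = 1) {D : Multiset (DV I)} (hD : ∀ a ∈ D, a ≤ full) :
    qq D ≤ D.card := by
  unfold qq
  have := Multiset.sum_le_card_nsmul (D.map fun a => ((a none : ℕ) : ℤ)) 1 (by
    intro z hz
    obtain ⟨a, ha, rfl⟩ := Multiset.mem_map.1 hz
    have : a none ≤ full none := hD a ha none
    rw [hf] at this
    exact_mod_cast this)
  simpa using this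

theorem ss_le {full : DV I} {D : Multiset (DV I)} (hD : ∀ a ∈ D, a ≤ full) :
    ss D ≤ D.card * tot full := by
  unfold ss
  have := Multiset.sum_le_card_nsmul (D.map fun a => ((tot a : ℕ) : ℤ)) (tot full) (by
    intro z hz
    obtain ⟨a, ha, rfl⟩ := Multiset.mem_map.1 hz
    exact_mod_cast tot_mono (hD a ha))
  simpa using this

theorem sq_le {full : DV I} {D : Multiset (DV I)} (hD : ∀ a ∈ D, a ≤ full) :
    sqD D ≤ D.card * (tot full) ^ 2 := by
  unfold sqD
  have := Multiset.sum_le_card_nsmul (D.map fun a => (tot a) ^ 2) ((tot full) ^ 2) (by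
    intro z hz
    obtain ⟨a, ha, rfl⟩ := Multiset.mem_map.1 hz
    exact Nat.pow_le_pow_left (tot_mono (hD a ha)) 2)
  simpa using this

theorem Phi_lower {full : DV I} (hf : full none = 1) {D : Multiset (DV I)}
    (hD : ∀ a ∈ D, a ≤ full) {K : ℕ} (hK : D.card ≤ K) :
    0 ≤ Phi full D + 2 * K * (K * tot full) := by
  unfold Phi
  have h1 := mm_nonneg D D
  have h2 := qq_nonneg D
  have h3 := ss_nonneg D
  have h4 := qq_le hf hD
  have h5 := ss_le hD
  have h6 : qq D ≤ K := h4.trans (by exact_mod_cast hK)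
  have h7 : ss D ≤ K * tot full := h5.trans (by
    have : D.card * tot full ≤ K * tot full := Nat.mul_le_mul_right _ hK
    exact_mod_cast this)
  have h8 : qq D * ss D ≤ K * (K * tot full) := by
    have := mul_le_mul h6 h7 h3 (by positivity : (0:ℤ) ≤ K)
    exact this
  have h9 : 0 ≤ qq D ^ 2 * tot full := by positivity
  linarith

/-- the termination key -/
def key (full : DV I) (K : ℕ) (D : Multiset (DV I)) : ℕ ×ₗ (ℕ ×ₗ (ℕ ×ₗ ℕ)) :=
  toLex ((Phi full D + 2 * K * (K * tot full)).toNat,
    toLex (chD full D, toLex (D.card, K * (tot full) ^ 2 - sqD D)))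

theorem key_lt_of_Phi {full : DV I} (hf : full none = 1) {K : ℕ} {D E : Multiset (DV I)}
    (hD : ∀ a ∈ D, a ≤ full) (hK : D.card ≤ K) (h : Phi full D < Phi full E) :
    key full K D < key full K E := by
  unfold key
  rw [Prod.Lex.toLex_lt_toLex]
  left
  have := Phi_lower hf hD hK
  simp only
  omega

theorem key_lt_of_ch {full : DV I} {K : ℕ} {D E : Multiset (DV I)}
    (h : Phi full D = Phi full E) (hc : chD full D < chD full E) :
    key full K D < key full K E := by
  unfold key
  rw [Prod.Lex.toLex_lt_toLex]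
  right
  refine ⟨by simp only [h], ?_⟩
  simp only
  rw [Prod.Lex.toLex_lt_toLex]
  left; exact hc

theorem key_lt_of_card {full : DV I} {K : ℕ} {D E : Multiset (DV I)}
    (h : Phi full D = Phi full E) (hc : chD full D = chD full E) (hk : D.card < E.card) :
    key full K D < key full K E := by
  unfold key
  rw [Prod.Lex.toLex_lt_toLex]
  right
  refine ⟨by simp only [h], ?_⟩
  simp only
  rw [Prod.Lex.toLex_lt_toLex]
  right
  refine ⟨hc, ?_⟩
  simp only
  rw [Prod.Lex.toLex_lt_toLex]
  left; exact hk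

theorem key_lt_of_sq {full : DV I} {K : ℕ} {D E : Multiset (DV I)}
    (h : Phi full D = Phi full E) (hc : chD full D = chD full E) (hk : D.card = E.card)
    (hD : ∀ a ∈ D, a ≤ full) (hK : D.card ≤ K)
    (hs : sqD E < sqD D) :
    key full K D < key full K E := by
  unfold key
  rw [Prod.Lex.toLex_lt_toLex]
  right
  refine ⟨by simp only [h], ?_⟩
  simp only
  rw [Prod.Lex.toLex_lt_toLex]
  right
  refine ⟨hc, ?_⟩
  simp only
  rw [Prod.Lex.toLex_lt_toLex]
  right
  refine ⟨hk, ?_⟩
  simp only
  have h1 := sq_le hD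
  have h2 : D.card * (tot full) ^ 2 ≤ K * (tot full) ^ 2 := Nat.mul_le_mul_right _ hK
  omega

end bounds

section abstract

variable {I Λ 𝒜 : Type*} [VS I] [CommRing Λ] [CommRing 𝒜] [Algebra Λ 𝒜]
variable (full : DV I) (P : DV I → Submodule Λ 𝒜) (R : Submodule Λ 𝒜)

omit [VS I] in
/-- nontrivial dimension vectors -/
def Nt (a : DV I) : Prop := a ≠ 0 ∧ a ≠ full ∧ a ≤ full

/-- span of the products of generators of given dimension vectors -/
def SP (D : Multiset (DV I)) : Submodule Λ 𝒜 := (D.map P).prod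

/-- nonempty chains of nontrivial dimension vectors -/
def IsCh (C : Multiset (DV I)) : Prop :=
  C ≠ 0 ∧ (∀ a ∈ C, Nt full a) ∧ (∀ a ∈ C, ∀ b ∈ C, a ≤ b ∨ b ≤ a)

def P2 : Submodule Λ 𝒜 :=
  (⨆ a : {a // Nt full a}, P a.1) ⊔
    ⨆ a : {a // Nt full a}, ⨆ b : {a // Nt full a}, P a.1 * P b.1

def J2 : Submodule Λ 𝒜 := R ⊓ P2 full P

def Z (N : ℤ) : Submodule Λ 𝒜 :=
  J2 full P R ⊔ ⨆ C : {C // IsCh full C ∧ Phi full C ≤ N}, SP P C.1

variable {full P R}

theorem Z_mono {N N' : ℤ} (h : N ≤ N') : Z full P R N ≤ Z full P R N' := by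
  unfold Z
  refine sup_le_sup le_rfl (iSup_le fun C => ?_)
  exact le_iSup (fun C : {C // IsCh full C ∧ Phi full C ≤ N'} => SP P C.1)
    ⟨C.1, C.2.1, C.2.2.trans h⟩

theorem SP_le_Z {C : Multiset (DV I)} (hC : IsCh full C) {N : ℤ} (h : Phi full C ≤ N) :
    SP P C ≤ Z full P R N :=
  le_sup_of_le_right (le_iSup (fun C : {C // IsCh full C ∧ Phi full C ≤ N} => SP P C.1)
    ⟨C, hC, h⟩)

theorem le_P2_one {a : DV I} (ha : Nt full a) : P a ≤ P2 full P :=
  le_sup_of_le_left (le_iSup (fun a : {a // Nt full a} => P a.1) ⟨a, ha⟩)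

theorem le_P2_two {a b : DV I} (ha : Nt full a) (hb : Nt full b) : P a * P b ≤ P2 full P :=
  le_sup_of_le_right ((le_iSup (fun b : {a // Nt full a} => P a * P b.1) ⟨b, hb⟩).trans
    (le_iSup (fun a : {a // Nt full a} => ⨆ b : {a // Nt full a}, P a.1 * P b.1) ⟨a, ha⟩))

omit [VS I] in
theorem SP_cons (a : DV I) (D : Multiset (DV I)) : SP P (a ::ₘ D) = P a * SP P D := by
  simp [SP]

omit [VS I] in
theorem SP_add (D E : Multiset (DV I)) : SP P (D + E) = SP P D * SP P E := by
  simp [SP]

omit [VS I] in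
theorem SP_pair (a b : DV I) : SP P ({a, b} : Multiset (DV I)) = P a * P b := by
  have : ({a, b} : Multiset (DV I)) = a ::ₘ b ::ₘ 0 := rfl
  rw [this, SP_cons, SP_cons]
  simp [SP]

theorem chg_zero (full : DV I) : chg full 0 = 0 := by simp [chg, tot]

theorem chg_full {full : DV I} (hf : full none = 1) : chg full full = 0 := by simp [chg, hf]

theorem chD_pair (x y : DV I) (X : Multiset (DV I)) :
    chD full ({x, y} + X) = chg full x + chg full y + chD full X := by
  have : ({x, y} : Multiset (DV I)) = x ::ₘ y ::ₘ 0 := rfl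
  rw [this]
  simp [chD, add_assoc]

theorem sqD_pair (x y : DV I) (X : Multiset (DV I)) :
    sqD ({x, y} + X) = (tot x) ^ 2 + (tot y) ^ 2 + sqD X := by
  have : ({x, y} : Multiset (DV I)) = x ::ₘ y ::ₘ 0 := rfl
  rw [this]
  simp [sqD, add_assoc]

theorem card_pair (x y : DV I) (X : Multiset (DV I)) :
    Multiset.card ({x, y} + X) = 2 + Multiset.card X := by
  have : ({x, y} : Multiset (DV I)) = x ::ₘ y ::ₘ 0 := rfl
  rw [this]
  simp only [Multiset.card_add, Multiset.card_cons, Multiset.card_zero]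

/-- multiplication by `R` does not change a product with at least one factor -/
theorem R_mul_SP (hRP : ∀ a, R * P a = P a) {D : Multiset (DV I)} (hD : D ≠ 0) :
    R * SP P D = SP P D := by
  obtain ⟨b, hb⟩ := Multiset.exists_mem_of_ne_zero hD
  obtain ⟨D', rfl⟩ := Multiset.exists_cons_of_mem hb
  rw [SP_cons, ← mul_assoc, hRP]

/-- the exchange step decreases the key -/
theorem key_exchange (hf : full none = 1)
    (hfs : ∀ i, i ∉ (VS.s : Finset I) → full (some i) = 0) {x y a : DV I} (hx : Nt full x) (hy : Nt full y)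
    (h1 : ¬ x ≤ y) (h2 : ¬ y ≤ x) (ha : a ≤ x ⊓ y) (ha' : x + y - a ≤ full) {K : ℕ}
    {X : Multiset (DV I)} (hX : ∀ b ∈ X, b ≤ full) (hK : Multiset.card ({x, y} + X) ≤ K) :
    key full K ({x + y - a, a} + X) < key full K ({x, y} + X) := by
  have hax : a ≤ x := ha.trans inf_le_left
  have hay : a ≤ y := ha.trans inf_le_right
  have hs : a + (x + y - a) = x + y := by
    funext o
    simp only [Pi.add_apply, Pi.sub_apply]
    have h3 : a o ≤ x o := hax o
    omega
  have hswap : ({x + y - a, a} : Multiset (DV I)) = {a, x + y - a} := Multiset.pair_comm _ _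
  have haf : a ≤ full := hax.trans hx.2.2
  have hD : ∀ b ∈ ({x + y - a, a} + X : Multiset (DV I)), b ≤ full := by
    intro b hb
    rcases Multiset.mem_add.1 hb with hb | hb
    · simp only [Multiset.insert_eq_cons, Multiset.mem_cons, Multiset.mem_singleton] at hb
      rcases hb with rfl | rfl
      · exact ha'
      · exact haf
    · exact hX b hb
  have hcard : Multiset.card ({x + y - a, a} + X) = Multiset.card ({x, y} + X) := by
    rw [card_pair, card_pair]
  by_cases hlt : Phi full ({x + y - a, a} + X) < Phi full ({x, y} + X)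
  · exact key_lt_of_Phi hf hD (hcard ▸ hK) hlt
  have hle : Phi full ({x + y - a, a} + X) ≤ Phi full ({x, y} + X) := by
    have := exchange_le (full := full) hs hax hay X
    rwa [hswap, add_comm _ X, add_comm _ X]
  have heq : Phi full ({x + y - a, a} + X) = Phi full ({x, y} + X) := le_antisymm hle (not_lt.1 hlt)
  have hamin : a = x ⊓ y := by
    by_contra hne
    have := exchange_lt (full := full) hs hax hay (exists_lt_of_ne hf hfs hx.2.2 hs hax hay ha' hne) X
    rw [hswap, add_comm _ X, add_comm _ X] at heq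
    omega
  have hmax : x + y - a = x ⊔ y := by
    rw [hamin]
    funext o
    simp only [Pi.add_apply, Pi.sub_apply, Pi.inf_apply, Pi.sup_apply]
    omega
  rcases minmax_measure hf hfs hx.2.2 hy.2.2 h1 h2 with h | ⟨h, h'⟩
  · refine key_lt_of_ch heq ?_
    rw [chD_pair, chD_pair, hmax, hamin]
    omega
  · refine key_lt_of_sq heq ?_ hcard hD (hcard ▸ hK) ?_
    · rw [chD_pair, chD_pair, hmax, hamin]
      omega
    · rw [sqD_pair, sqD_pair, hmax, hamin]
      omega

/-- **Rewriting.** Every product with at least one nontrivial factor is a combination of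
chains and of elements of `J2`. -/
theorem rewriting (hf : full none = 1)
    (hfs : ∀ i, i ∉ (VS.s : Finset I) → full (some i) = 0) (hP0 : P 0 = R) (hPf : P full = R)
    (hRP : ∀ a, R * P a = P a)
    (hpair : ∀ x y, Nt full x → Nt full y →
      P x * P y ≤ ⨆ a : {a // a ≤ x ⊓ y ∧ x + y - a ≤ full}, P (x + y - a.1) * P a.1)
    (D0 : Multiset (DV I)) (hD0 : ∀ a ∈ D0, a ≤ full) (hnt0 : ∃ a ∈ D0, Nt full a) :
    SP P D0 ≤ Z full P R (Phi full D0) := by
  set K := D0.card with hKdef
  refine WellFounded.induction (C := fun k => ∀ D : Multiset (DV I), key full K D = k →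
    D.card ≤ K → (∀ a ∈ D, a ≤ full) → (∃ a ∈ D, Nt full a) → SP P D ≤ Z full P R (Phi full D))
    (wellFounded_lt (α := ℕ ×ₗ (ℕ ×ₗ (ℕ ×ₗ ℕ)))) (key full K D0) ?_ D0 rfl le_rfl hD0 hnt0
  clear hnt0 hD0
  intro k ih D hk hK hD hnt
  subst hk
  -- trivial entries can be dropped
  by_cases htriv : ∃ a ∈ D, ¬ Nt full a
  · obtain ⟨a, ha, hant⟩ := htriv
    obtain ⟨D', rfl⟩ := Multiset.exists_cons_of_mem ha
    obtain ⟨b, hb, hbnt⟩ := hnt
    have hbD' : b ∈ D' := by
      rcases Multiset.mem_cons.1 hb with rfl | h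
      · exact absurd hbnt hant
      · exact h
    have hD' : ∀ c ∈ D', c ≤ full := fun c hc => hD c (Multiset.mem_cons_of_mem hc)
    have haf : a ≤ full := hD a ha
    have ha0 : a = 0 ∨ a = full := by
      by_contra hcon
      push Not at hcon
      exact hant ⟨hcon.1, hcon.2, haf⟩
    have hPhi : Phi full (a ::ₘ D') = Phi full D' := by
      rcases ha0 with rfl | rfl
      · exact Phi_zero_cons full D'
      · exact Phi_full_cons hf D' hD'
    have hch : chD full (a ::ₘ D') = chD full D' := by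
      rcases ha0 with rfl | rfl
      · simp [chD, chg_zero]
      · simp [chD, chg_full hf]
    have hPa : P a = R := by
      rcases ha0 with rfl | rfl
      · exact hP0
      · exact hPf
    have hne : D' ≠ 0 := by
      rintro rfl
      exact absurd hbD' (Multiset.notMem_zero b)
    rw [SP_cons, hPa, R_mul_SP hRP hne, hPhi]
    refine ih (key full K D') ?_ D' rfl ?_ hD' ⟨b, hbD', hbnt⟩
    · refine key_lt_of_card hPhi.symm hch.symm ?_
      rw [Multiset.card_cons]; omega
    · rw [Multiset.card_cons] at hK; omega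
  push Not at htriv
  by_cases hch : ∀ a ∈ D, ∀ b ∈ D, a ≤ b ∨ b ≤ a
  · refine SP_le_Z ⟨?_, htriv, hch⟩ le_rfl
    rintro rfl
    obtain ⟨a, ha, -⟩ := hnt
    exact absurd ha (Multiset.notMem_zero a)
  push Not at hch
  obtain ⟨x, hx, y, hy, hxy, hyx⟩ := hch
  have hxnt := htriv x hx
  have hynt := htriv y hy
  obtain ⟨D', rfl⟩ := Multiset.exists_cons_of_mem hx
  have hyD' : y ∈ D' := by
    rcases Multiset.mem_cons.1 hy with rfl | h
    · exact absurd le_rfl hxy
    · exact h
  obtain ⟨X, rfl⟩ := Multiset.exists_cons_of_mem hyD'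
  have hform : (x ::ₘ y ::ₘ X : Multiset (DV I)) = {x, y} + X := by
    simp [Multiset.insert_eq_cons]
  rw [hform] at hK hD ih ⊢
  have hX : ∀ b ∈ X, b ≤ full := fun b hb => hD b (Multiset.mem_add.2 (Or.inr hb))
  have hXnt : ∀ b ∈ X, Nt full b := fun b hb =>
    htriv b (Multiset.mem_cons_of_mem (Multiset.mem_cons_of_mem hb))
  -- the induction hypothesis for the exchanged multisets
  have hIH : ∀ a : {a // a ≤ x ⊓ y ∧ x + y - a ≤ full},
      (∃ b ∈ ({x + y - a.1, a.1} + X : Multiset (DV I)), Nt full b) →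
      SP P ({x + y - a.1, a.1} + X) ≤ Z full P R (Phi full ({x, y} + X)) := by
    rintro ⟨a, ha, ha'⟩ hnta
    have hax : a ≤ x := ha.trans inf_le_left
    have hay : a ≤ y := ha.trans inf_le_right
    have hs : a + (x + y - a) = x + y := by
      funext o
      simp only [Pi.add_apply, Pi.sub_apply]
      have h3 : a o ≤ x o := hax o
      omega
    refine (ih _ (key_exchange hf hfs hxnt hynt hxy hyx ha ha' hX hK) _ rfl ?_ ?_ hnta).trans
      (Z_mono ?_)
    · rw [card_pair] at hK ⊢
      exact hK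
    · intro b hb
      rcases Multiset.mem_add.1 hb with hb | hb
      · simp only [Multiset.insert_eq_cons, Multiset.mem_cons, Multiset.mem_singleton] at hb
        rcases hb with rfl | rfl
        · exact ha'
        · exact hax.trans hxnt.2.2
      · exact hX b hb
    · have := exchange_le (full := full) hs hax hay X
      rw [Multiset.pair_comm (x + y - a) a]
      rwa [add_comm _ X, add_comm _ X]
  rw [SP_add, SP_pair]
  by_cases hX0 : X = 0
  · subst hX0
    have hone : SP P (0 : Multiset (DV I)) = 1 := by simp [SP]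
    rw [hone, mul_one]
    -- split off the trivial pair
    let T := {a : {a // a ≤ x ⊓ y ∧ x + y - a ≤ full} // Nt full (x + y - a.1) ∨ Nt full a.1}
    set Qs : Submodule Λ 𝒜 := ⨆ a : T, P (x + y - a.1.1) * P a.1.1 with hQs
    have hafull : ∀ a : {a // a ≤ x ⊓ y ∧ x + y - a ≤ full}, a.1 ≤ full := fun a =>
      (a.2.1.trans inf_le_left).trans hxnt.2.2
    have hPtriv : ∀ b, b ≤ full → ¬ Nt full b → P b = R := by
      intro b hb hbn
      by_cases h0 : b = 0
      · rw [h0, hP0]
      · by_cases h1 : b = full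
        · rw [h1, hPf]
        · exact absurd ⟨h0, h1, hb⟩ hbn
    have hPR : ∀ b, P b * R = P b := fun b => by rw [mul_comm]; exact hRP b
    have hQP2 : Qs ≤ P2 full P := by
      refine iSup_le fun a => ?_
      by_cases h1 : Nt full (x + y - a.1.1)
      · by_cases h2 : Nt full a.1.1
        · exact le_P2_two h1 h2
        · rw [hPtriv _ (hafull a.1) h2, hPR]
          exact le_P2_one h1
      · by_cases h2 : Nt full a.1.1
        · rw [hPtriv _ a.1.2.2 h1, hRP]
          exact le_P2_one h2
        · exact absurd a.2 (by tauto)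
    have hRR : R * R = R := by
      have := hRP 0
      rwa [hP0] at this
    have hle : P x * P y ≤ R ⊔ Qs := by
      refine (hpair x y hxnt hynt).trans (iSup_le fun a => ?_)
      by_cases h : Nt full (x + y - a.1) ∨ Nt full a.1
      · exact le_sup_of_le_right (le_iSup (fun a : T => P (x + y - a.1.1) * P a.1.1) ⟨a, h⟩)
      · push Not at h
        rw [hPtriv _ a.2.2 h.1, hPtriv _ (hafull a) h.2, hRR]
        exact le_sup_left
    have hle2 : P x * P y ≤ (R ⊔ Qs) ⊓ P2 full P := le_inf hle (le_P2_two hxnt hynt)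
    have hmod : (R ⊔ Qs) ⊓ P2 full P = (R ⊓ P2 full P) ⊔ Qs := by
      rw [sup_comm R Qs, sup_inf_assoc_of_le R hQP2, sup_comm]
    rw [hmod] at hle2
    refine hle2.trans (sup_le le_sup_left (iSup_le fun a => ?_))
    have := hIH a.1 (by
      rcases a.2 with h | h
      · exact ⟨_, by simp, h⟩
      · exact ⟨_, by simp, h⟩)
    rw [add_zero, SP_pair] at this
    simpa using this
  · obtain ⟨b, hb⟩ := Multiset.exists_mem_of_ne_zero hX0
    calc P x * P y * SP P X
        ≤ (⨆ a : {a // a ≤ x ⊓ y ∧ x + y - a ≤ full}, P (x + y - a.1) * P a.1) * SP P X := by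
          gcongr
          exact hpair x y hxnt hynt
      _ = ⨆ a : {a // a ≤ x ⊓ y ∧ x + y - a ≤ full}, P (x + y - a.1) * P a.1 * SP P X := by
          rw [Submodule.iSup_mul]
      _ ≤ Z full P R (Phi full ({x, y} + X)) := by
          refine iSup_le fun a => ?_
          have := hIH a ⟨b, Multiset.mem_add.2 (Or.inr hb), hXnt b hb⟩
          rwa [SP_add, SP_pair] at this

end abstract

end Vale.Agent.P291.H906
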